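import Claimed.Agent.R252.S2s.Api

/-!
# ROW 252 (S0492), unit S2s (post BP-252-S2aB, architect helper78; prefix `k2s_`), file 4: FULLNESS OF THE LARGEST SPATIAL SCALE AT ONE SCALE  (02 `a01:largest-axis`, l.657-690).      CLOSED: all leaves proved 19:47Z.

PAPER-FREE.  STATEMENTS ARE FROZEN (defects: message to helper78).  (Provers: helpers 104, 68, 181, 138, 287, 152, 100, 61, 32, 193, 78.)

THE ARGUMENT.  `Y` is known by the observation `P.hid aL` with lists of size `≤ K`.  A chart is THIN if `|D_c| ≤ ρ q`.  For `l ∈ A_c`, `c` thin: `‖V - y_c'‖ ≤ 4 K ρ` (`k2s_vel_ball`), so `[V]_b` lies in a list `k2sVB` of `≤ (10 K)^j` bins if `ρ ≤ b`.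
At a terminal observation only `K (10K)^j` velocity bins are needed for all thin charts of its list.  On the incidences where (joint density of `(p_L, [V]_b)`) `≤ κ` (density of `p_L`), `k2s_cond_count` bounds the mass by `K (10K)^j κ`.
-/

set_option autoImplicit false

namespace Claimed.Agent.R252

open MeasureTheory
open scoped ENNReal BigOperators

noncomputable section

variable {v : KbVer} {P : KbPb v} (Y : KbSys P)

/-- the velocity bins of width `b` which meet the ball of radius `ρ'` about `y_c'` -/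
def k2sVB (b ρ' : ℝ) (c : Y.C) : Set (Fin v.j → ℤ) := {e | ∃ V : KbB v, ‖V - (Y.ch c).y1‖ ≤ ρ' ∧ ∀ i, kbBin b (V i) = e i}

theorem k2sVB_eqns_cite (b ρ' : ℝ) (c : Y.C) : k2sVB Y b ρ' c = {e | ∃ V : KbB v, ‖V - (Y.ch c).y1‖ ≤ ρ' ∧ ∀ i, kbBin b (V i) = e i} := rfl

/-- **L-252-K2S-X1.**   PLAN: `k2s_bin_ball_pi` with `ρ = 4 K ρ₀ ≤ 4 K b` : `(2 ρ / b + 2)^j ≤ (8 K + 2)^j ≤ (10 K)^j`. -/
theorem k2s_VB_card {K b ρ : ℝ} (hK : 1 ≤ K) (hρ : 0 ≤ ρ) (hb : ρ ≤ b) (hb0 : 0 < b) (c : Y.C) :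
    ∃ L : Finset (Fin v.j → ℤ), (L.card : ℝ) ≤ (10 * K) ^ v.j ∧ ∀ e ∈ k2sVB Y b (4 * K * ρ) c, e ∈ L := by
  have hK0 : 0 ≤ K := by linarith
  have hρ' : 0 ≤ 4 * K * ρ := by positivity
  obtain ⟨S, hS, hmem⟩ := k2s_bin_ball_pi hb0 hρ' (Y.ch c).y1
  refine ⟨S, hS.trans ?_, ?_⟩
  · have h1 : ρ / b ≤ 1 := (div_le_one hb0).2 hb
    have h2 : 2 * (4 * K * ρ) / b = 8 * K * (ρ / b) := by ring
    have h3 : 8 * K * (ρ / b) ≤ 8 * K * 1 := mul_le_mul_of_nonneg_left h1 (by positivity)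
    refine pow_le_pow_left₀ (by rw [h2]; positivity) ?_ _
    rw [h2]
    linarith
  · rintro e ⟨V, hV, he⟩
    have : e = fun i => kbBin b (V i) := funext fun i => (he i).symm
    rw [this]
    exact hmem V hV

/-- the velocity bin of a trajectory assigned to a thin chart -/
theorem k2s_VB_mem (hY : Y.WF) {K a b ρ : ℝ} (hG : Y.Geo K a) (c : Y.C) (hc : kbMn (Y.ch c).D ≤ ρ * Y.q) (hK : 0 ≤ K) (x : P.Lam × ℝ) (hx : x.1 ∈ Y.A c) :
    P.vel b (Y.wd c) x ∈ k2sVB Y b (4 * K * ρ) c := by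
  refine ⟨kbV (P.co (Y.wd c) x.1), ?_, fun i => rfl⟩
  have hq := k2s_q_pos Y
  have h1 := k2s_vel_ball Y hY hG c x.1 hx
  have h2 : 4 * K * kbMn (Y.ch c).D ≤ 4 * K * (ρ * Y.q) := mul_le_mul_of_nonneg_left hc (by positivity)
  have h3 : Y.q * ‖kbV (P.co (Y.wd c) x.1) - (Y.ch c).y1‖ ≤ Y.q * (4 * K * ρ) := by
    calc Y.q * ‖kbV (P.co (Y.wd c) x.1) - (Y.ch c).y1‖ ≤ 4 * K * (ρ * Y.q) := h1.trans h2
      _ = Y.q * (4 * K * ρ) := by ring
  exact le_of_mul_le_mul_left h3 hq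

open Classical in
/-- **FULLNESS OF THE LARGEST SPATIAL SCALE AT ONE SCALE** (L-252-K2S-X2).   The selected incidences of the thin charts weigh at most (exceptional mass of the conditional angular ceiling `κ`) `+ K (10K)^j κ`.
PLAN: obtain `Lst` from `hKn`.  In the world `γ` put `Z d e = ⋃ c (thin, `wd c = γ`, `e ∈ k2sVB ..`), {o | c ∈ Lst γ d o}` (finite union of measurable sets); at fixed `(d, o)` the allowed `e` lie in the union of the lists of `k2s_VB_card`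
over `c ∈ Lst γ d o` : at most `m = ⌊K (10K)^j⌋₊`.  `⋃_{c thin, wd c = γ} S c ⊆ Exc γ ∪ {joint ≤ κ pure, bs ∈ Z}` (`k2s_VB_mem`, `hY.S_sub`); `k2s_cond_count`; the `S c` of one world are disjoint: `k2s_sum_le_mass` with `G =` that union. -/
theorem k2s_axis (hP : P.WF) (hY : Y.WF) {K a aL b ρ κ : ℝ} (hK : 1 ≤ K) (hρ : 0 ≤ ρ) (hb : ρ ≤ b) (hb0 : 0 < b) (hκ : 0 ≤ κ) (hG : Y.Geo K a) (hKn : Y.Known (P.hid aL) K) :
    ∑ c with kbMn (Y.ch c).D ≤ ρ * Y.q, P.om (Y.wd c) * Y.mC c ≤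
      P.mass (fun γ => {x | ENNReal.ofReal κ * P.dn (P.hid aL) γ x < P.dn (P.hv aL b) γ x}) + ENNReal.ofReal (K * (10 * K) ^ v.j * κ) * P.tot := by
  obtain ⟨Lst, hcard, hmeas, hmem⟩ := hKn
  choose Lc hLc1 hLc2 using fun c => k2s_VB_card Y hK hρ hb hb0 c
  obtain ⟨Z, hZd⟩ : ∃ Z : P.W → ℤ → (Fin v.j → ℤ) → Set (ℝ × KbB v), Z = fun γ d e =>
      {o | ∃ c, kbMn (Y.ch c).D ≤ ρ * Y.q ∧ Y.wd c = γ ∧ e ∈ k2sVB Y b (4 * K * ρ) c ∧ c ∈ Lst γ d o} := ⟨_, rfl⟩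
  have hZ : ∀ γ d e, MeasurableSet (Z γ d e) := by
    intro γ d e
    have e1 : Z γ d e = ⋃ c, ⋃ (_ : kbMn (Y.ch c).D ≤ ρ * Y.q ∧ Y.wd c = γ ∧ e ∈ k2sVB Y b (4 * K * ρ) c),
        {o | c ∈ Lst γ d o} := by
      rw [hZd]
      ext o
      simp only [Set.mem_iUnion, exists_prop]
      constructor
      · rintro ⟨c, h1, h2, h3, h4⟩
        exact ⟨c, ⟨h1, h2, h3⟩, h4⟩
      · rintro ⟨c, ⟨h1, h2, h3⟩, h4⟩
        exact ⟨c, h1, h2, h3, h4⟩
    rw [e1]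
    exact MeasurableSet.iUnion fun c => MeasurableSet.iUnion fun _ => hmeas γ d c
  obtain ⟨m, hmd⟩ : ∃ m : ℕ, m = ⌊K * (10 * K) ^ v.j⌋₊ := ⟨_, rfl⟩
  have hK0 : (0 : ℝ) ≤ K := by linarith
  have hm : ∀ γ d o, ∃ L : Finset (Fin v.j → ℤ), L.card ≤ m ∧ ∀ e, o ∈ Z γ d e → e ∈ L := by
    intro γ d o
    refine ⟨(Lst γ d o).biUnion Lc, ?_, ?_⟩
    · rw [hmd]
      apply Nat.le_floor
      calc (((Lst γ d o).biUnion Lc).card : ℝ) ≤ ((∑ c ∈ Lst γ d o, (Lc c).card : ℕ) : ℝ) := by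
            exact_mod_cast Finset.card_biUnion_le
        _ = ∑ c ∈ Lst γ d o, ((Lc c).card : ℝ) := by push_cast; rfl
        _ ≤ ∑ c ∈ Lst γ d o, (10 * K) ^ v.j := Finset.sum_le_sum fun c _ => hLc1 c
        _ = (Lst γ d o).card * (10 * K) ^ v.j := by rw [Finset.sum_const, nsmul_eq_mul]
        _ ≤ K * (10 * K) ^ v.j := mul_le_mul_of_nonneg_right (hcard γ d o) (by positivity)
    · intro e he
      rw [hZd] at he
      obtain ⟨c, -, -, he', hc⟩ := he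
      exact Finset.mem_biUnion.2 ⟨c, hc, hLc2 c e he'⟩
  obtain ⟨Exc, hExc⟩ : ∃ Exc : P.W → Set (P.Lam × ℝ), Exc = fun γ =>
      {x | ENNReal.ofReal κ * P.dn (P.hid aL) γ x < P.dn (P.hv aL b) γ x} := ⟨_, rfl⟩
  obtain ⟨Good, hGood⟩ : ∃ Good : P.W → Set (P.Lam × ℝ), Good = fun γ =>
      {x | P.dn (P.lpair (P.hid aL) (P.vel b)) γ x ≤ ENNReal.ofReal κ * P.dn (P.hid aL) γ x ∧
        P.bs γ x ∈ Z γ (P.hid aL γ x) (P.vel b γ x)} := ⟨_, rfl⟩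
  have hsub : ∀ c, kbMn (Y.ch c).D ≤ ρ * Y.q → Y.S c ⊆ Exc (Y.wd c) ∪ Good (Y.wd c) := by
    intro c hc x hx
    by_cases hlt : ENNReal.ofReal κ * P.dn (P.hid aL) (Y.wd c) x < P.dn (P.hv aL b) (Y.wd c) x
    · left
      rw [hExc]
      exact hlt
    · right
      rw [hGood]
      refine ⟨not_lt.1 hlt, ?_⟩
      rw [hZd]
      exact ⟨c, hc, rfl, k2s_VB_mem Y hY hG c hc hK0 x ((hY.S_sub c hx).2).1, hmem c x hx⟩
  have h1 : ∑ c with kbMn (Y.ch c).D ≤ ρ * Y.q, P.om (Y.wd c) * Y.mC c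
      = ∑ c with kbMn (Y.ch c).D ≤ ρ * Y.q,
          P.om (Y.wd c) * P.mu (Y.wd c) (Y.S c ∩ (fun γ => Exc γ ∪ Good γ) (Y.wd c)) := by
    refine Finset.sum_congr rfl fun c hc => ?_
    rw [Set.inter_eq_left.2 (hsub c (Finset.mem_filter.1 hc).2)]
    rfl
  rw [h1, ← hExc]
  refine (k2s_sum_le_mass Y hP hY (fun γ => Exc γ ∪ Good γ) _).trans ?_
  refine (k2s_mass_union P Exc Good).trans (add_le_add le_rfl ?_)
  have h2 : ∀ γ, P.mu γ (Good γ) ≤ m * ENNReal.ofReal κ * P.mu γ Set.univ := by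
    intro γ
    rw [hGood]
    exact k2s_cond_count P hP (P.hid aL) (P.vel b) (k2s_hid_meas P hP aL) γ (ENNReal.ofReal κ) m (Z γ) (hZ γ) (hm γ)
  have h3 : (m : ℝ≥0∞) * ENNReal.ofReal κ ≤ ENNReal.ofReal (K * (10 * K) ^ v.j * κ) := by
    rw [ENNReal.ofReal_mul (by positivity)]
    refine mul_le_mul' ?_ le_rfl
    rw [← ENNReal.ofReal_natCast]
    apply ENNReal.ofReal_le_ofReal
    rw [hmd]
    exact Nat.floor_le (by positivity)
  unfold KbPb.tot KbPb.mass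
  rw [Finset.mul_sum]
  refine Finset.sum_le_sum fun γ _ => ?_
  calc P.om γ * P.mu γ (Good γ) ≤ P.om γ * (m * ENNReal.ofReal κ * P.mu γ Set.univ) := mul_le_mul' le_rfl (h2 γ)
    _ ≤ P.om γ * (ENNReal.ofReal (K * (10 * K) ^ v.j * κ) * P.mu γ Set.univ) :=
        mul_le_mul' le_rfl (mul_le_mul' h3 le_rfl)
    _ = ENNReal.ofReal (K * (10 * K) ^ v.j * κ) * (P.om γ * P.mu γ Set.univ) := by ring

/-- the exceptional set of the conditional ceiling, from the two typical bounds (joint upper, pure lower) -/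
theorem k2s_axis_exc (P : KbPb v) {aL b κ lo hi : ℝ} (hlo : 0 < lo) (hκ : hi ≤ κ * lo) (γ : P.W) :
    {x | ENNReal.ofReal κ * P.dn (P.hid aL) γ x < P.dn (P.hv aL b) γ x} ⊆ P.above (P.hv aL b) hi γ ∪ P.below (P.hid aL) lo γ := by
  intro x hx
  by_contra hcon
  rw [Set.mem_union, not_or] at hcon
  have h1 : P.dn (P.hv aL b) γ x ≤ ENNReal.ofReal hi := not_lt.1 hcon.1
  have h2 : ENNReal.ofReal lo ≤ P.dn (P.hid aL) γ x := not_lt.1 hcon.2
  have h3 : P.dn (P.hv aL b) γ x ≤ ENNReal.ofReal κ * P.dn (P.hid aL) γ x :=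
    calc P.dn (P.hv aL b) γ x ≤ ENNReal.ofReal hi := h1
      _ ≤ ENNReal.ofReal (κ * lo) := ENNReal.ofReal_le_ofReal hκ
      _ = ENNReal.ofReal κ * ENNReal.ofReal lo := ENNReal.ofReal_mul' hlo.le
      _ ≤ ENNReal.ofReal κ * P.dn (P.hid aL) γ x := mul_le_mul_right h2 _
  exact absurd hx (not_lt.2 h3)

open Classical in
/-- deleting the thin charts -/
theorem k2s_axis_restr (ρ : ℝ) :
    Y.mass ≤ (Y.restr {c | ρ * Y.q < kbMn (Y.ch c).D} fun _ => Set.univ).mass + ∑ c with kbMn (Y.ch c).D ≤ ρ * Y.q, P.om (Y.wd c) * Y.mC c := by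
  rw [k2s_restr_mass, Finset.sum_filter, ← Finset.sum_add_distrib]
  unfold KbSys.mass
  refine Finset.sum_le_sum fun c _ => ?_
  by_cases hc : kbMn (Y.ch c).D ≤ ρ * Y.q
  · rw [if_pos hc]
    exact le_add_self
  · rw [if_neg hc, add_zero, if_pos (show c ∈ {c | ρ * Y.q < kbMn (Y.ch c).D} from not_le.1 hc), Set.inter_univ]
    exact le_rfl

end

end Claimed.Agent.R252
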