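import Claimed.Agent.R252.S2s.Api

/-!
# ROW 252 (S0492), unit S2s (post BP-252-S2aB, architect helper78; prefix `k2s_`), file 2: SATURATION AND LABEL KNOWLEDGE AT ONE SCALE  (02 `a01:saturation`, l.497-570).      CLOSED: all leaves proved 19:47Z.

PAPER-FREE.  STATEMENTS ARE FROZEN (defects: message to helper78).  (Provers: helpers 104, 68, 181, 138, 287, 152, 100, 61, 32, 193, 78.)

THE ARGUMENT (explicit constants; `ω_c, m_c, ν_c, J_c, q` as in `Base/Sys`; `M = ∑ ω_c m_c ≥ 1/K`; `ε = mass {dn (hid a) > H n} ≤ 1/(32 K)`).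
* chart `c` CROSSES the observation (base `o`, hidden bin `d`) : `o ∈ k2sCross Y K a c d` (time, box, and some `w` of the CLOSED bin passes the value and derivative tests; closed bins make the set closed in `y`, hence measurable).
* `k2s_cross_mass` : incidences of density `≤ hi` whose observation is crossed by `c` weigh `≤ 64 K^4 hi q J_c`   [`k2s_cap_count`, `≤ 16 K^2` bins by `rmz_quad_bins`, `|U_c| = q (2K)^j J_c`].
* `R γ = {dn ≤ H n} ∩ {number of crossing charts ≤ Θ}`, `Θ = 1024 K^5 H`.   `k2s_sat_bad` : `mass (Rᶜ) ≤ ε + M/16`   [Markov + true floor `n q J_c ≤ K m_c`].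
* `keep = {c | q ν_c ≤ 8 K m_c  ∧  m_c ≤ 2 μ (S_c ∩ R)}`.   Loss `≤ 1/(8K) + 2 mass (Rᶜ) ≤ M/2`   (`k2s_sat_loss`).
* on `keep`: `m_c ≤ 2 μ(S_c ∩ R) ≤ 128 K^4 H n q J_c`, so (2.13) holds with `1024 K^5 H`; the list at an observation = the crossing charts.
-/

set_option autoImplicit false

namespace Claimed.Agent.R252

open MeasureTheory
open scoped ENNReal BigOperators

noncomputable section

variable {v : KbVer} {P : KbPb v} (Y : KbSys P)

/-! ## 1. Crossings  (L-252-K2S-S1, S2) -/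

/-- the hidden values of the CLOSED bin `d` which pass the value test and the derivative test of the chart `c` at the base `o` -/
def k2sPass (K a : ℝ) (c : Y.C) (d : ℤ) (o : ℝ × KbB v) : Set ℝ :=
  {w | (d : ℝ) * kbDy (a / P.B (Y.wd c)) ≤ w ∧ w ≤ ((d : ℝ) + 1) * kbDy (a / P.B (Y.wd c)) ∧ |(Y.ch c).T o.1 o.2 w| ≤ K * a ∧
    P.B (Y.wd c) ≤ K * |kbDw (Y.ch c).T o.1 o.2 w|}

theorem k2sPass_eqns_cite (K a : ℝ) (c : Y.C) (d : ℤ) (o : ℝ × KbB v) : k2sPass Y K a c d o =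
  {w | (d : ℝ) * kbDy (a / P.B (Y.wd c)) ≤ w ∧ w ≤ ((d : ℝ) + 1) * kbDy (a / P.B (Y.wd c)) ∧ |(Y.ch c).T o.1 o.2 w| ≤ K * a ∧
    P.B (Y.wd c) ≤ K * |kbDw (Y.ch c).T o.1 o.2 w|} := rfl

/-- the bases at which the chart `c` crosses the hidden bin `d` -/
def k2sCross (K a : ℝ) (c : Y.C) (d : ℤ) : Set (ℝ × KbB v) := {o | o ∈ k2sU Y K c ∧ (k2sPass Y K a c d o).Nonempty}

theorem k2sCross_eqns_cite (K a : ℝ) (c : Y.C) (d : ℤ) : k2sCross Y K a c d = {o | o ∈ k2sU Y K c ∧ (k2sPass Y K a c d o).Nonempty} := rfl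

/-- a quadratic test is continuous -/
theorem k2s_quad_cont {T : KbTest v} (hT : KbIsQuad T) : Continuous fun p : (ℝ × KbB v) × ℝ => T p.1.1 p.1.2 p.2 := by
  obtain ⟨Q, hQ⟩ := hT
  simp only [hQ, KbQuad.ev, dotProduct, Matrix.mulVec]
  fun_prop

/-- a quadratic test as a quadratic polynomial in `w`, with its exact derivative -/
theorem k2s_quad_w {T : KbTest v} (hT : KbIsQuad T) (t : ℝ) (y : KbB v) : ∃ A B C : ℝ, (∀ w, T t y w = A * w ^ 2 + B * w + C) ∧ ∀ w, kbDw T t y w = 2 * A * w + B := by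
  obtain ⟨Q, hQ⟩ := hT
  refine ⟨Q.cww, Q.cw + Q.ctw * t + Q.cyw ⬝ᵥ y,
    Q.c0 + Q.ct * t + Q.cy ⬝ᵥ y + Q.ctt * t ^ 2 + t * (Q.cty ⬝ᵥ y) + y ⬝ᵥ Q.cyy.mulVec y, ?_, ?_⟩
  · intro w
    rw [hQ]
    unfold KbQuad.ev
    ring
  · intro w
    unfold kbDw
    rw [hQ, hQ]
    unfold KbQuad.ev
    ring

theorem k2s_dw_cont {T : KbTest v} (hT : KbIsQuad T) : Continuous fun p : (ℝ × KbB v) × ℝ => kbDw T p.1.1 p.1.2 p.2 := by
  have h := k2s_quad_cont hT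
  have h1 : Continuous fun p : (ℝ × KbB v) × ℝ => T p.1.1 p.1.2 (p.2 + 1) :=
    h.comp (f := fun p : (ℝ × KbB v) × ℝ => (p.1, p.2 + 1)) (by fun_prop)
  have h2 : Continuous fun p : (ℝ × KbB v) × ℝ => T p.1.1 p.1.2 (p.2 - 1) :=
    h.comp (f := fun p : (ℝ × KbB v) × ℝ => (p.1, p.2 - 1)) (by fun_prop)
  unfold kbDw
  exact (h1.sub h2).div_const 2

theorem k2s_pass_closed (hY : Y.WF) (K a : ℝ) (c : Y.C) (d : ℤ) : IsClosed {o | (k2sPass Y K a c d o).Nonempty} := by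
  have hq : KbIsQuad (Y.ch c).T := (hY.adm c).1
  have g1 := k2s_quad_cont hq
  have g2 := k2s_dw_cont hq
  obtain ⟨lo, hlo⟩ : ∃ lo, lo = (d : ℝ) * kbDy (a / P.B (Y.wd c)) := ⟨_, rfl⟩
  obtain ⟨hi, hhi⟩ : ∃ hi, hi = ((d : ℝ) + 1) * kbDy (a / P.B (Y.wd c)) := ⟨_, rfl⟩
  have hZ : IsClosed {p : (ℝ × KbB v) × Set.Icc lo hi | |(Y.ch c).T p.1.1 p.1.2 p.2| ≤ K * a ∧
      P.B (Y.wd c) ≤ K * |kbDw (Y.ch c).T p.1.1 p.1.2 p.2|} := by
    have e : Continuous fun p : (ℝ × KbB v) × Set.Icc lo hi => ((p.1, (p.2 : ℝ)) : (ℝ × KbB v) × ℝ) := by fun_prop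
    refine IsClosed.inter ?_ ?_
    · exact isClosed_le (g1.comp e).abs continuous_const
    · exact isClosed_le continuous_const (continuous_const.mul (g2.comp e).abs)
  have himg := isClosedMap_fst_of_compactSpace _ hZ
  convert himg using 1
  ext o
  simp only [Set.mem_ofPred_eq, Set.mem_image]
  constructor
  · rintro ⟨w, h1, h2, h3, h4⟩
    exact ⟨(o, ⟨w, by rw [hlo]; exact h1, by rw [hhi]; exact h2⟩), ⟨h3, h4⟩, rfl⟩
  · rintro ⟨⟨o', w⟩, ⟨h3, h4⟩, rfl⟩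
    exact ⟨w.1, by rw [← hlo]; exact w.2.1, by rw [← hhi]; exact w.2.2, h3, h4⟩

/-- **L-252-K2S-S1.**   PLAN: `{o | (k2sPass ..).Nonempty}` is the image under `Prod.fst` of a closed subset of `(ℝ × KbB v) × Icc (d δ) ((d+1) δ)` : closed, because the projection along a compact factor is a closed map
(`isClosedMap_fst_of_compactSpace` on the subtype, or `IsCompact` + sequences); `kbDw T` is continuous as a combination of translates of `T` (`k2s_quad_cont`).  Intersect with `k2s_U_meas`. -/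
theorem k2s_cross_meas (hY : Y.WF) (K a : ℝ) (c : Y.C) (d : ℤ) : MeasurableSet (k2sCross Y K a c d) := by
  exact (k2s_U_meas Y K c).inter (k2s_pass_closed Y hY K a c d).measurableSet

theorem k2s_cross_sub (K a : ℝ) (c : Y.C) (d : ℤ) : k2sCross Y K a c d ⊆ k2sU Y K c := fun _ h => h.1

/-- a chart crosses the observations of its selected incidences -/
theorem k2s_cross_mem (hY : Y.WF) {K a : ℝ} (h : Y.Geo K a) (c : Y.C) (x : P.Lam × ℝ) (hx : x ∈ Y.S c) :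
    P.bs (Y.wd c) x ∈ k2sCross Y K a c (P.hid a (Y.wd c) x) := by
  have hs := (hY.S_sub c hx).2
  have hA : x.1 ∈ Y.A c := hs.1
  have hI : x.2 ∈ Y.I c := hs.2
  refine ⟨⟨hI, h.box c x.1 hA x.2 hI⟩, P.hw (Y.wd c) x, ?_, ?_, h.val c x.1 hA x.2 hI, h.dw_low c x hx⟩
  · have hδ : 0 < kbDy (a / P.B (Y.wd c)) := by
      unfold kbDy
      positivity
    have := Int.floor_le (P.hw (Y.wd c) x / kbDy (a / P.B (Y.wd c)))
    rwa [le_div_iff₀ hδ] at this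
  · have hδ : 0 < kbDy (a / P.B (Y.wd c)) := by
      unfold kbDy
      positivity
    have := (Int.lt_floor_add_one (P.hw (Y.wd c) x / kbDy (a / P.B (Y.wd c)))).le
    rwa [div_le_iff₀ hδ] at this

/-- **L-252-K2S-S2: at a fixed base a chart crosses at most `16 K²` hidden bins** (02 l.527-533).
PLAN: `k2s_quad_w`; `rmz_quad_bins A B C (K a) (B_γ / K) δ 0` with `δ = kbDy (a / B_γ) ≥ a / B_γ` gives a list `S` of card `≤ 4 (1 + K²)` containing `⌊w/δ⌋` for every passing `w`; a passing `w` of the closed bin `d` has `⌊w/δ⌋ ∈ {d, d+1}`;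
take `S ∪ S.image (· - 1)` : card `≤ 8 (1 + K²) ≤ 16 K²`. -/
theorem k2s_cross_bins (hP : P.WF) (hY : Y.WF) {K a : ℝ} (hK : 1 ≤ K) (ha : 0 < a) (c : Y.C) (o : ℝ × KbB v) :
    ∃ L : Finset ℤ, L.card ≤ ⌊16 * K ^ 2⌋₊ ∧ ∀ d, o ∈ k2sCross Y K a c d → d ∈ L := by
  obtain ⟨A, B, C, hT, hD⟩ := k2s_quad_w (hY.adm c).1 o.1 o.2
  have hB := hP.B_pos (Y.wd c)
  have hK0 : 0 < K := by linarith
  obtain ⟨δ, hδ⟩ : ∃ δ : ℝ, δ = kbDy (a / P.B (Y.wd c)) := ⟨_, rfl⟩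
  have hδ0 : 0 < δ := hδ ▸ k2s_dy_pos _
  have hδ1 : a / P.B (Y.wd c) ≤ δ := hδ ▸ k2s_dy_ge (div_pos ha hB)
  obtain ⟨S, hS, hS'⟩ := rmz_quad_bins A B C (K * a) (P.B (Y.wd c) / K) δ 0 (by positivity) (by positivity) hδ0
  refine ⟨S ∪ S.image (· - 1), ?_, ?_⟩
  · apply Nat.le_floor
    have h1 : ((S ∪ S.image (· - 1)).card : ℝ) ≤ 2 * S.card := by
      have h0 := (Finset.card_union_le S (S.image (· - 1))).trans (Nat.add_le_add_left Finset.card_image_le _)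
      have h2 : ((S ∪ S.image (· - 1)).card : ℝ) ≤ ((S.card + S.card : ℕ) : ℝ) := by exact_mod_cast h0
      push_cast at h2
      linarith
    have h3 : K * a / (P.B (Y.wd c) / K * δ) ≤ K ^ 2 := by
      rw [div_le_iff₀ (by positivity)]
      have h4 : a ≤ P.B (Y.wd c) * δ := by rwa [div_le_iff₀' hB] at hδ1
      calc K * a ≤ K * (P.B (Y.wd c) * δ) := by gcongr
        _ = K ^ 2 * (P.B (Y.wd c) / K * δ) := by
            field_simp
    have h5 : 1 ≤ K ^ 2 := one_le_pow₀ hK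
    linarith
  · rintro d ⟨-, w, hw1, hw2, hw3, hw4⟩
    rw [← hδ] at hw1 hw2
    have hmem := hS' w (by rw [← hT]; exact hw3) (by
      rw [← hD, div_le_iff₀ hK0, mul_comm]
      exact hw4)
    rw [sub_zero] at hmem
    have h1 : (d : ℝ) ≤ w / δ := by
      rw [le_div_iff₀ hδ0]
      exact hw1
    have h2 : w / δ ≤ (d : ℝ) + 1 := by
      rw [div_le_iff₀ hδ0]
      exact hw2
    have h3 : d ≤ ⌊w / δ⌋ := Int.le_floor.2 h1
    have h4 : ⌊w / δ⌋ ≤ d + 1 := by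
      have h6 := Int.floor_le (w / δ)
      have h5 : ((⌊w / δ⌋ : ℤ) : ℝ) ≤ ((d + 1 : ℤ) : ℝ) := by
        push_cast
        linarith
      exact_mod_cast h5
    rcases (by omega : ⌊w / δ⌋ = d ∨ ⌊w / δ⌋ = d + 1) with h | h
    · rw [h] at hmem
      exact Finset.mem_union_left _ hmem
    · rw [h] at hmem
      exact Finset.mem_union_right _ (Finset.mem_image.2 ⟨d + 1, hmem, by ring⟩)

/-- **L-252-K2S-S3: the volume calculation for one chart.**   PLAN: `k2s_cap_count` with `Z d = k2sCross Y K a c d`, `U = k2sU Y K c`, `m = ⌊16 K²⌋₊`; `k2s_U_vol`; `(2K)^j ≤ 4 K²` since `v.j ≤ 2`. -/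
theorem k2s_cross_mass (hP : P.WF) (hY : Y.WF) {K a hi : ℝ} (hK : 1 ≤ K) (ha : 0 < a) (hhi : 0 ≤ hi) (c : Y.C) :
    P.mu (Y.wd c) {x | P.dn (P.hid a) (Y.wd c) x ≤ ENNReal.ofReal hi ∧ P.bs (Y.wd c) x ∈ k2sCross Y K a c (P.hid a (Y.wd c) x)}
      ≤ ENNReal.ofReal (64 * K ^ 4 * hi * Y.q * (Y.ch c).J) := by
  have hK0 : 0 < K := by linarith
  have h1 := k2s_cap_count P hP (P.hid a) (Y.wd c) (ENNReal.ofReal hi) ⌊16 * K ^ 2⌋₊ (fun d => k2sCross Y K a c d)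
    (fun d => k2s_cross_meas Y hY K a c d) (k2sU Y K c) (k2s_U_meas Y K c) (fun d => k2s_cross_sub Y K a c d)
    (fun o => k2s_cross_bins Y hP hY hK ha c o)
  refine h1.trans ?_
  rw [k2s_U_vol Y hY hK0.le c]
  have hq := k2s_q_pos Y
  have hJ := k2s_J_pos Y hY c
  have h2 : ((⌊16 * K ^ 2⌋₊ : ℕ) : ℝ≥0∞) ≤ ENNReal.ofReal (16 * K ^ 2) := by
    rw [← ENNReal.ofReal_natCast]
    exact ENNReal.ofReal_le_ofReal (Nat.floor_le (by positivity))
  have h3 : (2 * K) ^ v.j ≤ 4 * K ^ 2 := by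
    have h4 : v.j ≤ 2 := by
      cases v <;> simp [KbVer.j]
    calc (2 * K) ^ v.j ≤ (2 * K) ^ 2 := pow_le_pow_right₀ (by linarith) h4
      _ = 4 * K ^ 2 := by ring
  calc ((⌊16 * K ^ 2⌋₊ : ℕ) : ℝ≥0∞) * ENNReal.ofReal hi * ENNReal.ofReal (Y.q * (2 * K) ^ v.j * (Y.ch c).J)
      ≤ ENNReal.ofReal (16 * K ^ 2) * ENNReal.ofReal hi * ENNReal.ofReal (Y.q * (2 * K) ^ v.j * (Y.ch c).J) := by
        gcongr
    _ = ENNReal.ofReal (16 * K ^ 2 * hi * (Y.q * (2 * K) ^ v.j * (Y.ch c).J)) := by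
        rw [← ENNReal.ofReal_mul (by positivity), ← ENNReal.ofReal_mul (by positivity)]
    _ ≤ ENNReal.ofReal (64 * K ^ 4 * hi * Y.q * (Y.ch c).J) := by
        apply ENNReal.ofReal_le_ofReal
        calc 16 * K ^ 2 * hi * (Y.q * (2 * K) ^ v.j * (Y.ch c).J)
            ≤ 16 * K ^ 2 * hi * (Y.q * (4 * K ^ 2) * (Y.ch c).J) := by gcongr
          _ = 64 * K ^ 4 * hi * Y.q * (Y.ch c).J := by ring

/-! ## 2. The retained incidences  (L-252-K2S-S4) -/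

open Classical in
/-- the charts of the world `γ` which cross the observation (base `o`, hidden bin `d`) -/
def k2sLst (K a : ℝ) (γ : P.W) (d : ℤ) (o : ℝ × KbB v) : Finset Y.C := Finset.univ.filter fun c => Y.wd c = γ ∧ o ∈ k2sCross Y K a c d

open Classical in
theorem k2sLst_eqns_cite (K a : ℝ) (γ : P.W) (d : ℤ) (o : ℝ × KbB v) :
    k2sLst Y K a γ d o = Finset.univ.filter fun c => Y.wd c = γ ∧ o ∈ k2sCross Y K a c d := rfl

/-- the retained incidences: density `≤ hi`, at most `Θ` crossing charts -/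
def k2sR (K a hi Θ : ℝ) (γ : P.W) : Set (P.Lam × ℝ) :=
  {x | P.dn (P.hid a) γ x ≤ ENNReal.ofReal hi ∧ ((k2sLst Y K a γ (P.hid a γ x) (P.bs γ x)).card : ℝ) ≤ Θ}

theorem k2sR_eqns_cite (K a hi Θ : ℝ) (γ : P.W) : k2sR Y K a hi Θ γ =
  {x | P.dn (P.hid a) γ x ≤ ENNReal.ofReal hi ∧ ((k2sLst Y K a γ (P.hid a γ x) (P.bs γ x)).card : ℝ) ≤ Θ} := rfl

theorem k2s_lst_mem_iff (K a : ℝ) (γ : P.W) (d : ℤ) (o : ℝ × KbB v) (c : Y.C) :
    c ∈ k2sLst Y K a γ d o ↔ Y.wd c = γ ∧ o ∈ k2sCross Y K a c d := by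
  classical
  simp [k2sLst]

theorem k2s_lst_mem_meas (hY : Y.WF) (K a : ℝ) (γ : P.W) (d : ℤ) (c : Y.C) :
    MeasurableSet {o | c ∈ k2sLst Y K a γ d o} := by
  simp only [k2s_lst_mem_iff]
  by_cases h : Y.wd c = γ
  · simpa [h] using k2s_cross_meas Y hY K a c d
  · simp [h]

open Classical in
theorem k2s_card_eq_sum {α : Type} [Fintype α] (s : Finset α) : s.card = ∑ c : α, if c ∈ s then 1 else 0 := by
  simp

theorem k2s_lst_card_meas (hY : Y.WF) (K a : ℝ) (γ : P.W) (d : ℤ) :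
    Measurable fun o => ((k2sLst Y K a γ d o).card : ℝ) := by
  classical
  have e : (fun o => ((k2sLst Y K a γ d o).card : ℝ))
      = fun o => ∑ c : Y.C, ({o | c ∈ k2sLst Y K a γ d o}.indicator (fun _ => (1 : ℝ)) o) := by
    funext o
    rw [k2s_card_eq_sum]
    push_cast
    refine Finset.sum_congr rfl fun c _ => ?_
    simp [Set.indicator_apply]
  rw [e]
  exact Finset.measurable_fun_sum _ fun c _ => measurable_const.indicator (k2s_lst_mem_meas Y hY K a γ d c)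

/-- PLAN: for every `s : Finset Y.C` the set `{o | k2sLst .. γ d o = s}` is a finite Boolean combination of the `k2sCross`; `k2s_obs_meas`, `k2s_dn_meas`. -/
theorem k2s_R_meas (hP : P.WF) (hY : Y.WF) (K a hi Θ : ℝ) (γ : P.W) : MeasurableSet (k2sR Y K a hi Θ γ) := by
  have h1 : MeasurableSet {x | P.dn (P.hid a) γ x ≤ ENNReal.ofReal hi} :=
    measurableSet_le (k2s_dn_meas P hP (k2s_hid_meas P hP a) γ) measurable_const
  have h2 : MeasurableSet {x | P.bs γ x ∈ (fun d : ℤ => {o | ((k2sLst Y K a γ d o).card : ℝ) ≤ Θ}) (P.hid a γ x)} :=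
    k2s_obs_meas P hP (k2s_hid_meas P hP a) γ _ fun d =>
      measurableSet_le (k2s_lst_card_meas Y hY K a γ d) measurable_const
  exact h1.inter h2

theorem k2s_lst_meas (hY : Y.WF) (K a Θ : ℝ) (γ : P.W) (d : ℤ) (c : Y.C) :
    MeasurableSet {o | c ∈ k2sLst Y K a γ d o ∧ ((k2sLst Y K a γ d o).card : ℝ) ≤ Θ} := by
  exact (k2s_lst_mem_meas Y hY K a γ d c).inter
    (measurableSet_le (k2s_lst_card_meas Y hY K a γ d) measurable_const)

/-- **Markov for the number of crossings** (02 l.546-556).   `∑_γ ω_γ μ_γ {dn ≤ hi, card > Θ} ≤ Θ⁻¹ ∑_c ω_c μ {dn ≤ hi, c crosses} ≤ Θ⁻¹ ∑_c ω_c 64 K^4 hi q J_c`.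
PLAN: on the set, `Θ ≤ card = ∑_c 1[c crosses]`; `mul_meas_ge_le_lintegral` (or integrate the pointwise inequality), `lintegral_finset_sum`, `k2s_cross_mass`. -/
theorem k2s_sat_markov (hP : P.WF) (hY : Y.WF) {K a hi Θ : ℝ} (hK : 1 ≤ K) (ha : 0 < a) (hhi : 0 ≤ hi) (hΘ : 0 < Θ) :
    ENNReal.ofReal Θ * P.mass (fun γ => {x | P.dn (P.hid a) γ x ≤ ENNReal.ofReal hi ∧ Θ < ((k2sLst Y K a γ (P.hid a γ x) (P.bs γ x)).card : ℝ)})
      ≤ ∑ c, P.om (Y.wd c) * ENNReal.ofReal (64 * K ^ 4 * hi * Y.q * (Y.ch c).J) := by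
  classical
  obtain ⟨E, hE⟩ : ∃ E : P.W → Y.C → Set (P.Lam × ℝ), E = fun γ c =>
      {x | P.dn (P.hid a) γ x ≤ ENNReal.ofReal hi ∧ P.bs γ x ∈ k2sCross Y K a c (P.hid a γ x)} := ⟨_, rfl⟩
  have hEm : ∀ γ c, MeasurableSet (E γ c) := fun γ c => by
    rw [hE]
    exact (measurableSet_le (k2s_dn_meas P hP (k2s_hid_meas P hP a) γ) measurable_const).inter
      (k2s_obs_meas P hP (k2s_hid_meas P hP a) γ (fun d => k2sCross Y K a c d) fun d => k2s_cross_meas Y hY K a c d)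
  have hγ : ∀ γ, ENNReal.ofReal Θ * P.mu γ {x | P.dn (P.hid a) γ x ≤ ENNReal.ofReal hi ∧
        Θ < ((k2sLst Y K a γ (P.hid a γ x) (P.bs γ x)).card : ℝ)}
      ≤ ∑ c, if Y.wd c = γ then P.mu γ (E γ c) else 0 := by
    intro γ
    have hm : ∀ c : Y.C, Measurable fun x => if Y.wd c = γ then (E γ c).indicator (fun _ => (1 : ℝ≥0∞)) x else 0 := by
      intro c
      by_cases h : Y.wd c = γ
      · simpa [h] using measurable_const.indicator (hEm γ c)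
      · simp [h]
    have hfm : Measurable fun x => ∑ c, if Y.wd c = γ then (E γ c).indicator (fun _ => (1 : ℝ≥0∞)) x else 0 :=
      Finset.measurable_fun_sum _ fun c _ => hm c
    have hint : ∫⁻ x, ∑ c, (if Y.wd c = γ then (E γ c).indicator (fun _ => (1 : ℝ≥0∞)) x else 0) ∂(P.mu γ)
        = ∑ c, if Y.wd c = γ then P.mu γ (E γ c) else 0 := by
      rw [lintegral_finsetSum _ fun c _ => hm c]
      refine Finset.sum_congr rfl fun c _ => ?_
      by_cases h : Y.wd c = γ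
      · simp [h, lintegral_indicator_const (hEm γ c)]
      · simp [h]
    rw [← hint]
    refine le_trans ?_ (mul_meas_ge_le_lintegral hfm (ENNReal.ofReal Θ))
    refine mul_le_mul_right (measure_mono ?_) _
    rintro x ⟨hx1, hx2⟩
    show ENNReal.ofReal Θ ≤ ∑ c, if Y.wd c = γ then (E γ c).indicator (fun _ => (1 : ℝ≥0∞)) x else 0
    have h1 : (((k2sLst Y K a γ (P.hid a γ x) (P.bs γ x)).card : ℕ) : ℝ≥0∞)
        = ∑ c, if Y.wd c = γ then (E γ c).indicator (fun _ => (1 : ℝ≥0∞)) x else 0 := by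
      rw [k2s_card_eq_sum]
      push_cast
      refine Finset.sum_congr rfl fun c _ => ?_
      rw [hE]
      by_cases h : Y.wd c = γ
      · by_cases h' : P.bs γ x ∈ k2sCross Y K a c (P.hid a γ x)
        · simp [k2s_lst_mem_iff, h, h', hx1]
        · simp [k2s_lst_mem_iff, h, h']
      · simp [k2s_lst_mem_iff, h]
    calc ENNReal.ofReal Θ ≤ ENNReal.ofReal ((k2sLst Y K a γ (P.hid a γ x) (P.bs γ x)).card : ℝ) :=
          ENNReal.ofReal_le_ofReal hx2.le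
      _ = (((k2sLst Y K a γ (P.hid a γ x) (P.bs γ x)).card : ℕ) : ℝ≥0∞) := ENNReal.ofReal_natCast _
      _ = _ := h1
  unfold KbPb.mass
  rw [Finset.mul_sum]
  calc ∑ γ, ENNReal.ofReal Θ * (P.om γ * P.mu γ {x | P.dn (P.hid a) γ x ≤ ENNReal.ofReal hi ∧
          Θ < ((k2sLst Y K a γ (P.hid a γ x) (P.bs γ x)).card : ℝ)})
      = ∑ γ, P.om γ * (ENNReal.ofReal Θ * P.mu γ {x | P.dn (P.hid a) γ x ≤ ENNReal.ofReal hi ∧
          Θ < ((k2sLst Y K a γ (P.hid a γ x) (P.bs γ x)).card : ℝ)}) :=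
        Finset.sum_congr rfl fun γ _ => by ring
    _ ≤ ∑ γ, P.om γ * ∑ c, if Y.wd c = γ then P.mu γ (E γ c) else 0 :=
        Finset.sum_le_sum fun γ _ => mul_le_mul_right (hγ γ) _
    _ = ∑ c, P.om (Y.wd c) * P.mu (Y.wd c) (E (Y.wd c) c) := by
        simp only [Finset.mul_sum, mul_ite, mul_zero]
        rw [Finset.sum_comm]
        refine Finset.sum_congr rfl fun c _ => ?_
        rw [Finset.sum_ite_eq]
        simp
    _ ≤ ∑ c, P.om (Y.wd c) * ENNReal.ofReal (64 * K ^ 4 * hi * Y.q * (Y.ch c).J) :=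
        Finset.sum_le_sum fun c _ => mul_le_mul_right (by
          rw [hE]
          exact k2s_cross_mass Y hP hY hK ha hhi c) _

/-- the omitted incidences: `mass (Rᶜ) ≤ mass {dn > H n} + M / 16` for `Θ = 1024 K^5 H`.   PLAN: `Rᶜ ⊆ above ∪ {dn ≤ hi, card > Θ}`; `k2s_sat_markov` with `hi = H n`; true floor `n J_c q ≤ K m_c`. -/
theorem k2s_sat_bad (hP : P.WF) (hY : Y.WF) {K H a n : ℝ} (hK : 1 ≤ K) (hH : 1 ≤ H) (ha : 0 < a) (hn : 0 ≤ n) (hT : Y.Tru K n) :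
    16 * P.mass (fun γ => (k2sR Y K a (H * n) (1024 * K ^ 5 * H) γ)ᶜ) ≤ 16 * P.mass (P.above (P.hid a) (H * n)) + Y.mass := by
  have hK0 : 0 < K := by linarith
  have hH0 : 0 < H := by linarith
  obtain ⟨Θ, hΘ⟩ : ∃ Θ : ℝ, Θ = 1024 * K ^ 5 * H := ⟨_, rfl⟩
  rw [← hΘ]
  have hΘ0 : 0 < Θ := by
    rw [hΘ]
    positivity
  obtain ⟨Sb, hSb⟩ : ∃ Sb : P.W → Set (P.Lam × ℝ), Sb = fun γ => {x | P.dn (P.hid a) γ x ≤ ENNReal.ofReal (H * n) ∧
      Θ < ((k2sLst Y K a γ (P.hid a γ x) (P.bs γ x)).card : ℝ)} := ⟨_, rfl⟩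
  have h1 : P.mass (fun γ => (k2sR Y K a (H * n) Θ γ)ᶜ) ≤ P.mass (P.above (P.hid a) (H * n)) + P.mass Sb := by
    refine (k2s_mass_mono P fun γ x hx => ?_).trans (k2s_mass_union P _ _)
    by_cases hd : P.dn (P.hid a) γ x ≤ ENNReal.ofReal (H * n)
    · right
      rw [hSb]
      refine ⟨hd, ?_⟩
      by_contra hc
      exact hx ⟨hd, not_lt.1 hc⟩
    · left
      exact not_le.1 hd
  have h2 := k2s_sat_markov Y hP hY hK ha (mul_nonneg hH0.le hn) hΘ0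
  have h3 : ∑ c, P.om (Y.wd c) * ENNReal.ofReal (64 * K ^ 4 * (H * n) * Y.q * (Y.ch c).J)
      ≤ ENNReal.ofReal (64 * K ^ 5 * H) * Y.mass := by
    unfold KbSys.mass
    rw [Finset.mul_sum]
    refine Finset.sum_le_sum fun c _ => ?_
    have e : 64 * K ^ 4 * (H * n) * Y.q * (Y.ch c).J = 64 * K ^ 4 * H * (n * (Y.ch c).J * Y.q) := by ring
    rw [e, ENNReal.ofReal_mul (by positivity)]
    calc P.om (Y.wd c) * (ENNReal.ofReal (64 * K ^ 4 * H) * ENNReal.ofReal (n * (Y.ch c).J * Y.q))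
        ≤ P.om (Y.wd c) * (ENNReal.ofReal (64 * K ^ 4 * H) * (ENNReal.ofReal K * Y.mC c)) :=
          mul_le_mul_right (mul_le_mul_right (hT c) _) _
      _ = ENNReal.ofReal (64 * K ^ 5 * H) * (P.om (Y.wd c) * Y.mC c) := by
          have e2 : ENNReal.ofReal (64 * K ^ 5 * H) = ENNReal.ofReal (64 * K ^ 4 * H) * ENNReal.ofReal K := by
            rw [← ENNReal.ofReal_mul (by positivity)]
            congr 1
            ring
          rw [e2]
          ring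
  have h4 : ENNReal.ofReal Θ = ENNReal.ofReal (64 * K ^ 5 * H) * 16 := by
    rw [hΘ, show 1024 * K ^ 5 * H = 64 * K ^ 5 * H * 16 by ring, ENNReal.ofReal_mul (by positivity)]
    norm_num
  have h5 : 16 * P.mass Sb ≤ Y.mass := by
    have h6 := h2.trans h3
    rw [h4, mul_assoc, ← hSb] at h6
    exact (ENNReal.mul_le_mul_iff_right (by
      rw [Ne, ENNReal.ofReal_eq_zero, not_le]
      positivity) ENNReal.ofReal_ne_top).1 h6
  calc 16 * P.mass (fun γ => (k2sR Y K a (H * n) Θ γ)ᶜ)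
      ≤ 16 * (P.mass (P.above (P.hid a) (H * n)) + P.mass Sb) := mul_le_mul_right h1 _
    _ = 16 * P.mass (P.above (P.hid a) (H * n)) + 16 * P.mass Sb := mul_add _ _ _
    _ ≤ _ := add_le_add le_rfl h5

/-! ## 3. The retained charts  (L-252-K2S-S5) -/

/-- the retained charts -/
def k2sKeep (K : ℝ) (R : P.W → Set (P.Lam × ℝ)) : Set Y.C :=
  {c | ENNReal.ofReal Y.q * Y.nuC c ≤ ENNReal.ofReal (8 * K) * Y.mC c ∧ Y.mC c ≤ 2 * P.mu (Y.wd c) (Y.S c ∩ R (Y.wd c))}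

theorem k2sKeep_eqns_cite (K : ℝ) (R : P.W → Set (P.Lam × ℝ)) : k2sKeep Y K R =
  {c | ENNReal.ofReal Y.q * Y.nuC c ≤ ENNReal.ofReal (8 * K) * Y.mC c ∧ Y.mC c ≤ 2 * P.mu (Y.wd c) (Y.S c ∩ R (Y.wd c))} := rfl

/-- **the loss** (02 l.512-519, 539-541, 559-563), for ANY measurable family `R`:   `M ≤ M' + 1/(8K) + 2 mass (Rᶜ)`.
PLAN: split the labels: (i) `q ν_c > 8 K m_c` : `∑ ω_c m_c ≤ (8K)⁻¹ Z ≤ (8K)⁻¹` (`k2s_Z_le`); (ii) `m_c > 2 μ(S_c ∩ R)` : then `m_c = μ(S_c ∩ R) + μ(S_c ∩ Rᶜ) < m_c/2 + μ(S_c ∩ Rᶜ)`, so `m_c ≤ 2 μ(S_c ∩ Rᶜ)`;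
(iii) kept: `m_c = μ(S_c ∩ R) + μ(S_c ∩ Rᶜ)`.   `∑_c ω_c μ(S_c ∩ Rᶜ) ≤ mass (Rᶜ)` is `k2s_sum_le_mass`.   All masses are finite (`≤ 1`). -/
theorem k2s_sat_loss (hP : P.WF) (hY : Y.WF) {K : ℝ} (hK : 1 ≤ K) (R : P.W → Set (P.Lam × ℝ)) (hR : ∀ γ, MeasurableSet (R γ)) :
    Y.mass ≤ (Y.restr (k2sKeep Y K R) fun c => R (Y.wd c)).mass + ENNReal.ofReal (1 / (8 * K)) + 2 * P.mass (fun γ => (R γ)ᶜ) := by
  classical
  have hK0 : 0 < K := by linarith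
  rw [k2s_restr_mass]
  have hpt : ∀ c : Y.C, P.om (Y.wd c) * Y.mC c
      ≤ (if c ∈ k2sKeep Y K R then P.om (Y.wd c) * P.mu (Y.wd c) (Y.S c ∩ R (Y.wd c)) else 0)
        + ENNReal.ofReal (1 / (8 * K)) * (P.om (Y.wd c) * ENNReal.ofReal Y.q * Y.nuC c)
        + 2 * (P.om (Y.wd c) * P.mu (Y.wd c) (Y.S c ∩ (R (Y.wd c))ᶜ)) := by
    intro c
    have hsplit : Y.mC c = P.mu (Y.wd c) (Y.S c ∩ R (Y.wd c)) + P.mu (Y.wd c) (Y.S c ∩ (R (Y.wd c))ᶜ) := by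
      rw [← Set.sdiff_eq, KbSys.mC, measure_inter_add_sdiff _ (hR _)]
    by_cases hk : c ∈ k2sKeep Y K R
    · rw [if_pos hk, hsplit, mul_add, add_assoc]
      refine add_le_add le_rfl (le_add_left ?_)
      rw [two_mul]
      exact le_add_left le_rfl
    · rw [if_neg hk, zero_add]
      by_cases hA : ENNReal.ofReal Y.q * Y.nuC c ≤ ENNReal.ofReal (8 * K) * Y.mC c
      · have hBn : ¬ Y.mC c ≤ 2 * P.mu (Y.wd c) (Y.S c ∩ R (Y.wd c)) := fun hB => hk ⟨hA, hB⟩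
        rw [not_le, hsplit, two_mul] at hBn
        have hx : P.mu (Y.wd c) (Y.S c ∩ R (Y.wd c)) ≠ ∞ :=
          ne_top_of_le_ne_top ENNReal.one_ne_top ((measure_mono (Set.subset_univ _)).trans (k2s_mu_univ P hP _))
        have hlt := (ENNReal.add_lt_add_iff_left hx).1 hBn
        refine le_add_left ?_
        rw [hsplit, ← mul_assoc, mul_comm 2, mul_assoc, two_mul]
        exact mul_le_mul_right (add_le_add hlt.le le_rfl) _
      · rw [not_le] at hA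
        refine le_add_right ?_
        have e1 : ENNReal.ofReal (1 / (8 * K)) * ENNReal.ofReal (8 * K) = 1 := by
          rw [← ENNReal.ofReal_mul (by positivity), one_div, inv_mul_cancel₀ (by positivity), ENNReal.ofReal_one]
        calc P.om (Y.wd c) * Y.mC c
            = ENNReal.ofReal (1 / (8 * K)) * (P.om (Y.wd c) * (ENNReal.ofReal (8 * K) * Y.mC c)) := by
              rw [mul_left_comm (P.om (Y.wd c)), ← mul_assoc, e1, one_mul]
          _ ≤ ENNReal.ofReal (1 / (8 * K)) * (P.om (Y.wd c) * (ENNReal.ofReal Y.q * Y.nuC c)) :=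
              mul_le_mul_right (mul_le_mul_right hA.le _) _
          _ = _ := by rw [mul_assoc (P.om (Y.wd c))]
  have h2 : ∑ c, ENNReal.ofReal (1 / (8 * K)) * (P.om (Y.wd c) * ENNReal.ofReal Y.q * Y.nuC c)
      ≤ ENNReal.ofReal (1 / (8 * K)) := by
    rw [← Finset.mul_sum]
    calc ENNReal.ofReal (1 / (8 * K)) * ∑ c, P.om (Y.wd c) * ENNReal.ofReal Y.q * Y.nuC c
        ≤ ENNReal.ofReal (1 / (8 * K)) * 1 := mul_le_mul_right (k2s_Z_le Y hP hY) _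
      _ = _ := mul_one _
  have h3 : ∑ c, 2 * (P.om (Y.wd c) * P.mu (Y.wd c) (Y.S c ∩ (R (Y.wd c))ᶜ)) ≤ 2 * P.mass (fun γ => (R γ)ᶜ) := by
    rw [← Finset.mul_sum]
    exact mul_le_mul_right (k2s_sum_le_mass Y hP hY (fun γ => (R γ)ᶜ) Finset.univ) _
  calc Y.mass = ∑ c, P.om (Y.wd c) * Y.mC c := rfl
    _ ≤ ∑ c, ((if c ∈ k2sKeep Y K R then P.om (Y.wd c) * P.mu (Y.wd c) (Y.S c ∩ R (Y.wd c)) else 0)
        + ENNReal.ofReal (1 / (8 * K)) * (P.om (Y.wd c) * ENNReal.ofReal Y.q * Y.nuC c)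
        + 2 * (P.om (Y.wd c) * P.mu (Y.wd c) (Y.S c ∩ (R (Y.wd c))ᶜ))) := Finset.sum_le_sum fun c _ => hpt c
    _ = (∑ c, if c ∈ k2sKeep Y K R then P.om (Y.wd c) * P.mu (Y.wd c) (Y.S c ∩ R (Y.wd c)) else 0)
        + ∑ c, ENNReal.ofReal (1 / (8 * K)) * (P.om (Y.wd c) * ENNReal.ofReal Y.q * Y.nuC c)
        + ∑ c, 2 * (P.om (Y.wd c) * P.mu (Y.wd c) (Y.S c ∩ (R (Y.wd c))ᶜ)) := by
        rw [Finset.sum_add_distrib, Finset.sum_add_distrib]
    _ ≤ _ := add_le_add (add_le_add le_rfl h2) h3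

/-! ## 4. Saturation  (L-252-K2S-S6: the four conclusions; glue) -/

/-- the restricted system of the saturation lemma -/
def k2sSat (K H a n : ℝ) : KbSys P :=
  Y.restr (k2sKeep Y K (k2sR Y K a (H * n) (1024 * K ^ 5 * H))) fun c => k2sR Y K a (H * n) (1024 * K ^ 5 * H) (Y.wd c)

theorem k2sSat_eqns_cite (K H a n : ℝ) : k2sSat Y K H a n =
  Y.restr (k2sKeep Y K (k2sR Y K a (H * n) (1024 * K ^ 5 * H))) fun c => k2sR Y K a (H * n) (1024 * K ^ 5 * H) (Y.wd c) := rfl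

/-- PLAN: `k2s_sat_loss` + `k2s_sat_bad` : `M ≤ M' + 1/(8K) + 2 ε + M/8`, `1/(8K) ≤ M/8`, `2 ε ≤ 1/(16 K) ≤ M/16`; so `M ≤ M' + M/2`, `M` finite. -/
theorem k2s_sat_big (hP : P.WF) (hY : Y.WF) {K H a n : ℝ} (hK : 1 ≤ K) (hH : 1 ≤ H) (ha : 0 < a) (hn : 0 ≤ n) (hB : Y.Big K) (hT : Y.Tru K n)
    (hcap : ENNReal.ofReal (32 * K) * P.mass (P.above (P.hid a) (H * n)) ≤ 1) : (k2sSat Y K H a n).Big (2 * K) := by
  have hK0 : 0 < K := by linarith
  have hRm : ∀ γ, MeasurableSet (k2sR Y K a (H * n) (1024 * K ^ 5 * H) γ) := fun γ => k2s_R_meas Y hP hY _ _ _ _ γ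
  have hloss := k2s_sat_loss Y hP hY hK (k2sR Y K a (H * n) (1024 * K ^ 5 * H)) hRm
  have hbad := k2s_sat_bad Y hP hY hK hH ha hn hT
  have hM : Y.mass ≠ ∞ := ne_top_of_le_ne_top ENNReal.one_ne_top (k2s_mass_le_one Y hP hY)
  have hM' : (k2sSat Y K H a n).mass ≠ ∞ := ne_top_of_le_ne_top ENNReal.one_ne_top
    (k2s_mass_le_one _ hP (k2s_restr_wf Y _ _ hY fun c => hRm _))
  have hρ : P.mass (fun γ => (k2sR Y K a (H * n) (1024 * K ^ 5 * H) γ)ᶜ) ≠ ∞ :=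
    ne_top_of_le_ne_top ENNReal.one_ne_top ((k2s_mass_le_tot P _).trans (k2s_tot_le P hP))
  have hε : P.mass (P.above (P.hid a) (H * n)) ≠ ∞ :=
    ne_top_of_le_ne_top ENNReal.one_ne_top ((k2s_mass_le_tot P _).trans (k2s_tot_le P hP))
  obtain ⟨m, hm0, hm⟩ : ∃ m : ℝ, 0 ≤ m ∧ Y.mass = ENNReal.ofReal m :=
    ⟨_, ENNReal.toReal_nonneg, (ENNReal.ofReal_toReal hM).symm⟩
  obtain ⟨m', hm0', hm'⟩ : ∃ m' : ℝ, 0 ≤ m' ∧ (k2sSat Y K H a n).mass = ENNReal.ofReal m' :=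
    ⟨_, ENNReal.toReal_nonneg, (ENNReal.ofReal_toReal hM').symm⟩
  obtain ⟨ρ, hρ0, hρ'⟩ : ∃ ρ : ℝ, 0 ≤ ρ ∧ P.mass (fun γ => (k2sR Y K a (H * n) (1024 * K ^ 5 * H) γ)ᶜ) = ENNReal.ofReal ρ :=
    ⟨_, ENNReal.toReal_nonneg, (ENNReal.ofReal_toReal hρ).symm⟩
  obtain ⟨e, he0, he⟩ : ∃ e : ℝ, 0 ≤ e ∧ P.mass (P.above (P.hid a) (H * n)) = ENNReal.ofReal e :=
    ⟨_, ENNReal.toReal_nonneg, (ENNReal.ofReal_toReal hε).symm⟩
  have e2 : (2 : ℝ≥0∞) = ENNReal.ofReal 2 := by norm_num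
  have e16 : (16 : ℝ≥0∞) = ENNReal.ofReal 16 := by norm_num
  have hB' : 1 ≤ K * m := by
    have h := hB
    unfold KbSys.Big at h
    rwa [hm, ← ENNReal.ofReal_mul hK0.le, ← ENNReal.ofReal_one, ENNReal.ofReal_le_ofReal_iff (by positivity)] at h
  have hcap' : 32 * K * e ≤ 1 := by
    have h := hcap
    rwa [he, ← ENNReal.ofReal_mul (by positivity), ← ENNReal.ofReal_one, ENNReal.ofReal_le_ofReal_iff zero_le_one] at h
  have hloss' : m ≤ m' + 1 / (8 * K) + 2 * ρ := by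
    have h : Y.mass ≤ (k2sSat Y K H a n).mass + ENNReal.ofReal (1 / (8 * K))
      + 2 * P.mass (fun γ => (k2sR Y K a (H * n) (1024 * K ^ 5 * H) γ)ᶜ) := hloss
    rwa [hm, hm', hρ', e2, ← ENNReal.ofReal_mul (by norm_num), ← ENNReal.ofReal_add hm0' (by positivity),
      ← ENNReal.ofReal_add (by positivity) (by positivity), ENNReal.ofReal_le_ofReal_iff (by positivity)] at h
  have hbad' : 16 * ρ ≤ 16 * e + m := by
    have h := hbad
    rwa [hm, hρ', he, e16, ← ENNReal.ofReal_mul (by norm_num), ← ENNReal.ofReal_mul (by norm_num),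
      ← ENNReal.ofReal_add (by positivity) hm0, ENNReal.ofReal_le_ofReal_iff (by positivity)] at h
  have hl : K * m ≤ K * m' + 1 / 8 + 2 * (K * ρ) := by
    calc K * m ≤ K * (m' + 1 / (8 * K) + 2 * ρ) := mul_le_mul_of_nonneg_left hloss' hK0.le
      _ = K * m' + 1 / 8 + 2 * (K * ρ) := by
          field_simp
  have hb : 16 * (K * ρ) ≤ 16 * (K * e) + K * m := by
    have := mul_le_mul_of_nonneg_left hbad' hK0.le
    linarith
  unfold KbSys.Big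
  rw [hm', ← ENNReal.ofReal_mul (by positivity), ← ENNReal.ofReal_one]
  apply ENNReal.ofReal_le_ofReal
  linarith

theorem k2s_sat_true {K H a n : ℝ} (hK : 1 ≤ K) (hT : Y.Tru K n) : (k2sSat Y K H a n).Tru (2 * K) n := by
  rintro ⟨c, hc⟩
  show ENNReal.ofReal (n * (Y.ch c).J * Y.q)
    ≤ ENNReal.ofReal (2 * K) * P.mu (Y.wd c) (Y.S c ∩ k2sR Y K a (H * n) (1024 * K ^ 5 * H) (Y.wd c))
  have e : ENNReal.ofReal (2 * K) = ENNReal.ofReal K * 2 := by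
    rw [mul_comm, ENNReal.ofReal_mul (by linarith)]
    norm_num
  rw [e, mul_assoc (ENNReal.ofReal K)]
  exact (hT c).trans (mul_le_mul_right hc.2 _)

/-- PLAN: for a kept `c`: `q ν_c ≤ 8K m_c ≤ 16 K m'_c`;   `m_c ≤ 2 m'_c ≤ 2 μ{dn ≤ H n, c crosses} ≤ 128 K^4 H n q J_c` (`k2s_cross_mem`, `k2s_cross_mass`), hence `q ν_c ≤ 1024 K^5 H n q J_c`, cancel `q`;
`n J_c q ≤ K m_c ≤ K q ν_c` (`k2s_mC_le`), cancel `q`. -/
theorem k2s_sat_sat (hP : P.WF) (hY : Y.WF) {K H a n : ℝ} (hK : 1 ≤ K) (hH : 1 ≤ H) (ha : 0 < a) (hn : 0 ≤ n) (hG : Y.Geo K a) (hT : Y.Tru K n) :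
    (k2sSat Y K H a n).Sat (1024 * K ^ 5 * H) n := by
  have hK0 : 0 < K := by linarith
  have hH0 : 0 < H := by linarith
  have hq := k2s_q_pos Y
  have hq0 : ENNReal.ofReal Y.q ≠ 0 := by
    rw [Ne, ENNReal.ofReal_eq_zero, not_le]
    exact hq
  have hK5 : K ≤ K ^ 5 * H := by
    calc K = K ^ 1 := (pow_one K).symm
      _ ≤ K ^ 5 := pow_le_pow_right₀ hK (by norm_num)
      _ ≤ K ^ 5 * H := le_mul_of_one_le_right (by positivity) hH
  rintro ⟨c, hc⟩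
  have hJ := k2s_J_pos Y hY c
  obtain ⟨m', hm'⟩ : ∃ m' : ℝ≥0∞, m' = P.mu (Y.wd c) (Y.S c ∩ k2sR Y K a (H * n) (1024 * K ^ 5 * H) (Y.wd c)) := ⟨_, rfl⟩
  have h16 : ENNReal.ofReal Y.q * Y.nuC c ≤ ENNReal.ofReal (16 * K) * m' := by
    have e : ENNReal.ofReal (16 * K) = ENNReal.ofReal (8 * K) * 2 := by
      rw [show 16 * K = 8 * K * 2 by ring, ENNReal.ofReal_mul (by positivity)]
      norm_num
    rw [e, mul_assoc, hm']
    exact hc.1.trans (mul_le_mul_right hc.2 _)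
  show ENNReal.ofReal Y.q * Y.nuC c ≤ ENNReal.ofReal (1024 * K ^ 5 * H)
        * P.mu (Y.wd c) (Y.S c ∩ k2sR Y K a (H * n) (1024 * K ^ 5 * H) (Y.wd c)) ∧
      Y.nuC c ≤ ENNReal.ofReal (1024 * K ^ 5 * H * n * (Y.ch c).J) ∧
      ENNReal.ofReal (n * (Y.ch c).J) ≤ ENNReal.ofReal (1024 * K ^ 5 * H) * Y.nuC c
  rw [← hm']
  refine ⟨?_, ?_, ?_⟩
  · exact h16.trans (mul_le_mul_left (ENNReal.ofReal_le_ofReal (by linarith)) _)
  · have h1 : m' ≤ ENNReal.ofReal (64 * K ^ 4 * (H * n) * Y.q * (Y.ch c).J) := by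
      rw [hm']
      refine (measure_mono ?_).trans (k2s_cross_mass Y hP hY hK ha (mul_nonneg hH0.le hn) c)
      rintro x ⟨hx1, hx2⟩
      exact ⟨hx2.1, k2s_cross_mem Y hY hG c x hx1⟩
    have h2 : ENNReal.ofReal Y.q * Y.nuC c ≤ ENNReal.ofReal Y.q * ENNReal.ofReal (1024 * K ^ 5 * H * n * (Y.ch c).J) := by
      calc ENNReal.ofReal Y.q * Y.nuC c ≤ ENNReal.ofReal (16 * K) * m' := h16
        _ ≤ ENNReal.ofReal (16 * K) * ENNReal.ofReal (64 * K ^ 4 * (H * n) * Y.q * (Y.ch c).J) := mul_le_mul_right h1 _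
        _ = ENNReal.ofReal Y.q * ENNReal.ofReal (1024 * K ^ 5 * H * n * (Y.ch c).J) := by
            rw [← ENNReal.ofReal_mul (by positivity), ← ENNReal.ofReal_mul hq.le]
            congr 1
            ring
    exact (ENNReal.mul_le_mul_iff_right hq0 ENNReal.ofReal_ne_top).1 h2
  · have h2 : ENNReal.ofReal Y.q * ENNReal.ofReal (n * (Y.ch c).J) ≤ ENNReal.ofReal Y.q * (ENNReal.ofReal K * Y.nuC c) := by
      calc ENNReal.ofReal Y.q * ENNReal.ofReal (n * (Y.ch c).J) = ENNReal.ofReal (n * (Y.ch c).J * Y.q) := by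
            rw [← ENNReal.ofReal_mul hq.le]
            congr 1
            ring
        _ ≤ ENNReal.ofReal K * Y.mC c := hT c
        _ ≤ ENNReal.ofReal K * (ENNReal.ofReal Y.q * Y.nuC c) := mul_le_mul_right (k2s_mC_le Y hP hY c) _
        _ = _ := by ring
    exact ((ENNReal.mul_le_mul_iff_right hq0 ENNReal.ofReal_ne_top).1 h2).trans
      (mul_le_mul_left (ENNReal.ofReal_le_ofReal (by linarith)) _)

/-- PLAN: `Lst γ d o =` the kept members of `k2sLst Y K a γ d o` if its card is `≤ Θ`, else `∅` (`Finset.subtype`); measurability `k2s_lst_meas`; membership `k2s_cross_mem` + the definition of `k2sR`. -/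
theorem k2s_sat_known (hY : Y.WF) {K H a n : ℝ} (hK : 1 ≤ K) (hH : 1 ≤ H) (hG : Y.Geo K a) : (k2sSat Y K H a n).Known (P.hid a) (1024 * K ^ 5 * H) := by
  classical
  have hK0 : 0 < K := by linarith
  have hH0 : 0 < H := by linarith
  refine ⟨fun γ d o => if ((k2sLst Y K a γ d o).card : ℝ) ≤ 1024 * K ^ 5 * H then
    ((k2sLst Y K a γ d o).subtype (· ∈ k2sKeep Y K (k2sR Y K a (H * n) (1024 * K ^ 5 * H))) :
      Finset (k2sKeep Y K (k2sR Y K a (H * n) (1024 * K ^ 5 * H)))) else ∅, ?_, ?_, ?_⟩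
  · intro γ d o
    show (((if ((k2sLst Y K a γ d o).card : ℝ) ≤ 1024 * K ^ 5 * H then
      ((k2sLst Y K a γ d o).subtype (· ∈ k2sKeep Y K (k2sR Y K a (H * n) (1024 * K ^ 5 * H))) :
        Finset (k2sKeep Y K (k2sR Y K a (H * n) (1024 * K ^ 5 * H)))) else ∅).card : ℕ) : ℝ) ≤ 1024 * K ^ 5 * H
    split_ifs with h
    · refine le_trans ?_ h
      rw [Finset.card_subtype]
      exact_mod_cast Finset.card_filter_le _ _
    · rw [Finset.card_empty, Nat.cast_zero]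
      positivity
  · intro γ d c
    have e : {o | c ∈ (if ((k2sLst Y K a γ d o).card : ℝ) ≤ 1024 * K ^ 5 * H then
        ((k2sLst Y K a γ d o).subtype (· ∈ k2sKeep Y K (k2sR Y K a (H * n) (1024 * K ^ 5 * H))) :
          Finset (k2sKeep Y K (k2sR Y K a (H * n) (1024 * K ^ 5 * H)))) else ∅)}
        = {o | (c : k2sKeep Y K (k2sR Y K a (H * n) (1024 * K ^ 5 * H))).1 ∈ k2sLst Y K a γ d o ∧
            ((k2sLst Y K a γ d o).card : ℝ) ≤ 1024 * K ^ 5 * H} := by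
      ext o
      show c ∈ (if ((k2sLst Y K a γ d o).card : ℝ) ≤ 1024 * K ^ 5 * H then
        ((k2sLst Y K a γ d o).subtype (· ∈ k2sKeep Y K (k2sR Y K a (H * n) (1024 * K ^ 5 * H))) :
          Finset (k2sKeep Y K (k2sR Y K a (H * n) (1024 * K ^ 5 * H)))) else ∅)
        ↔ (c : k2sKeep Y K (k2sR Y K a (H * n) (1024 * K ^ 5 * H))).1 ∈ k2sLst Y K a γ d o ∧
            ((k2sLst Y K a γ d o).card : ℝ) ≤ 1024 * K ^ 5 * H
      split_ifs with h
      · exact ⟨fun hc => ⟨Finset.mem_subtype.1 hc, h⟩, fun hc => Finset.mem_subtype.2 hc.1⟩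
      · exact ⟨fun hc => absurd hc (Finset.notMem_empty _), fun hc => absurd hc.2 h⟩
    exact e ▸ k2s_lst_meas Y hY K a (1024 * K ^ 5 * H) γ d _
  · rintro ⟨c, hc⟩ x ⟨hx1, hx2⟩
    have h1 : ((k2sLst Y K a (Y.wd c) (P.hid a (Y.wd c) x) (P.bs (Y.wd c) x)).card : ℝ) ≤ 1024 * K ^ 5 * H := hx2.2
    show (⟨c, hc⟩ : k2sKeep Y K (k2sR Y K a (H * n) (1024 * K ^ 5 * H))) ∈
      (if ((k2sLst Y K a (Y.wd c) (P.hid a (Y.wd c) x) (P.bs (Y.wd c) x)).card : ℝ) ≤ 1024 * K ^ 5 * H then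
        ((k2sLst Y K a (Y.wd c) (P.hid a (Y.wd c) x) (P.bs (Y.wd c) x)).subtype
          (· ∈ k2sKeep Y K (k2sR Y K a (H * n) (1024 * K ^ 5 * H))) :
          Finset (k2sKeep Y K (k2sR Y K a (H * n) (1024 * K ^ 5 * H)))) else ∅)
    rw [if_pos h1, Finset.mem_subtype]
    exact (k2s_lst_mem_iff Y K a _ _ _ c).2 ⟨rfl, k2s_cross_mem Y hY hG c x hx1⟩

/-- **SATURATION AND LABEL KNOWLEDGE AT ONE SCALE** (02 `a01:saturation`). -/
theorem k2s_saturation (hP : P.WF) (hY : Y.WF) {K H a n : ℝ} (hK : 1 ≤ K) (hH : 1 ≤ H) (ha : 0 < a) (hn : 0 ≤ n) (hG : Y.Geo K a) (hB : Y.Big K) (hT : Y.Tru K n)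
    (hcap : ENNReal.ofReal (32 * K) * P.mass (P.above (P.hid a) (H * n)) ≤ 1) :
    (k2sSat Y K H a n).WF ∧ (k2sSat Y K H a n).Geo K a ∧ (k2sSat Y K H a n).Big (2 * K) ∧ (k2sSat Y K H a n).Tru (2 * K) n ∧
      (k2sSat Y K H a n).Sat (1024 * K ^ 5 * H) n ∧ (k2sSat Y K H a n).Known (P.hid a) (1024 * K ^ 5 * H) :=
  ⟨k2s_restr_wf Y _ _ hY fun _ => k2s_R_meas Y hP hY _ _ _ _ _, k2s_restr_geo Y _ _ hG, k2s_sat_big Y hP hY hK hH ha hn hB hT hcap, k2s_sat_true Y hK hT,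
    k2s_sat_sat Y hP hY hK hH ha hn hG hT, k2s_sat_known Y hY hK hH hG⟩

end

end Claimed.Agent.R252
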