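import Claimed.Agent.R252.Base.Seq
import Claimed.Agent.R252.S2s.Sat
import Claimed.Agent.R252.S2s.Axis

/-!
# ROW 252 (S0492), unit S2s (post BP-252-S2aB, architect helper78; prefix `k2s_`), file 5: THE SEQUENCE FORMS  (02 `a01:saturation`, `a01:largest-axis`).      CLOSED: all leaves proved 19:47Z.

PAPER-FREE (language: `Base/Lang`, `Base/Seq`).  STATEMENTS ARE FROZEN (defects: message to helper78).  (Provers: helpers 104, 68, 181, 138, 287, 152, 100, 61, 32, 193, 78.)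
Pattern of all proofs: for every fixed tolerance the hypotheses of the one-scale core hold eventually; `kb_slow` chooses the tolerances `τ k → 0`; the conclusions have slack `C K^C`, subpower by `kb_subp_pow`/`kb_subp_mul`; monotonicity in the slack (`Api` s6).
-/

set_option autoImplicit false

namespace Claimed.Agent.R252

open MeasureTheory Filter Topology
open Claimed.Agent.R255 (uf)
open scoped ENNReal BigOperators

noncomputable section

variable {v : KbVer} (E : KbEx v)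

/-! ## 1. Transfer tools  (L-252-K2S-Q1) -/

/-- a one-scale predicate, monotone in the slack, which holds with a subpower slack holds with every `N^τ` eventually -/
theorem k2s_of_subp (p : ℕ → ℝ → Prop) (hm : ∀ k a b, a ≤ b → p k a → p k b) {K : ℕ → ℝ} (hK : KbSubP E.R K) (h : ∀ᶠ k in uf, p k (K k)) :
    ∀ τ : ℝ, 0 < τ → ∀ᶠ k in uf, p k (E.R.N k ^ τ) := by
  intro τ hτ
  filter_upwards [hK τ hτ, h] with k h1 h2
  exact hm k _ _ h1.2 h2

/-- power small masses are eventually below every inverse subpower -/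
theorem k2s_pow_lt (S : E.Sel) (hE : E.Ok) (h : KbPow E.R (E.massOf S)) {K : ℕ → ℝ} (hK : KbSubP E.R K) :
    ∀ᶠ k in uf, ENNReal.ofReal (K k) * (E.P k).mass (S k) ≤ 1 := by
  obtain ⟨c, hc, h1⟩ := h
  obtain ⟨M, hM⟩ := hE.2.1
  filter_upwards [h1, hK c hc, hM] with k a1 a2 a3
  have hfin : (E.P k).mass (S k) ≠ ⊤ :=
    ne_top_of_le_ne_top ENNReal.one_ne_top ((k2s_mass_le_tot _ _).trans (k2s_tot_le _ a3.1))
  have e : (E.P k).mass (S k) = ENNReal.ofReal ((E.P k).mass (S k)).toReal := (ENNReal.ofReal_toReal hfin).symm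
  have hN : 0 < E.R.N k := kb_res_pos E.R k
  rw [e, ← ENNReal.ofReal_mul (by linarith [a2.1]), ← ENNReal.ofReal_one]
  apply ENNReal.ofReal_le_ofReal
  calc K k * ((E.P k).mass (S k)).toReal ≤ E.R.N k ^ c * E.R.N k ^ (-c) :=
        mul_le_mul a2.2 a1 ENNReal.toReal_nonneg (Real.rpow_pos_of_pos hN _).le
    _ = 1 := by rw [← Real.rpow_add hN]; simp

/-- restrictions of a chart system are chart systems as soon as they are big -/
theorem k2s_isSys_restr (Y : E.Sys) {r h : ℝ} (hY : E.IsSys Y r h) (keep : ∀ k, Set (Y k).C) (S' : ∀ k, (Y k).C → Set ((E.P k).Lam × ℝ)) (hS : ∀ k c, MeasurableSet (S' k c))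
    (hB : ∀ τ : ℝ, 0 < τ → ∀ᶠ k in uf, ((Y k).restr (keep k) (S' k)).Big (E.R.N k ^ τ)) : E.IsSys (fun k => (Y k).restr (keep k) (S' k)) r h := by
  obtain ⟨⟨M, hM⟩, hG, hq⟩ := hY
  refine ⟨⟨M, ?_⟩, fun τ hτ => ?_, hq⟩
  · filter_upwards [hM] with k hk
    exact ⟨k2s_restr_wf (Y k) (keep k) (S' k) hk.1 (hS k), k2s_restr_tmp (Y k) (keep k) (S' k) hk.2⟩
  · filter_upwards [hG τ hτ, hB τ hτ] with k h1 h2
    exact ⟨k2s_restr_geo (Y k) (keep k) (S' k) h1.1, h2⟩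

/-- known by `p_r` implies known by `p_s`, `s ≥ r` -/
theorem k2s_isKnown_mono (hE : E.Ok) (Y : E.Sys) {r s : ℝ} (hrs : r ≤ s) (h : E.IsKnown Y r) : E.IsKnown Y s := by
  obtain ⟨M, hM⟩ := hE.2.1
  intro τ hτ
  filter_upwards [h τ hτ, hM] with k h1 h2
  have hN : 0 < E.R.N k := kb_res_pos E.R k
  exact k2s_known_refine (Y k) h2.1 (Real.rpow_pos_of_pos hN _)
    (Real.rpow_le_rpow_of_exponent_le (kb_res_one_le E.R k) (neg_le_neg hrs)) h1

/-! ## 2. Saturation and label knowledge  (L-252-K2S-Q2) -/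

/-- natural powers of subpower factors -/
theorem k2s_subp_npow (R : KbRes) {K : ℕ → ℝ} (h : KbSubP R K) (n : ℕ) : KbSubP R fun k => K k ^ n := by
  induction n with
  | zero => simpa using kb_subp_one R
  | succ n ih =>
    have := kb_subp_mul R ih h
    simpa [pow_succ] using this

/-- restrictions of a chart system are chart systems as soon as they are well formed and big (eventual form) -/
theorem k2s_isSys_restr_ev (Y : E.Sys) {r h : ℝ} (hY : E.IsSys Y r h) (keep : ∀ k, Set (Y k).C) (S' : ∀ k, (Y k).C → Set ((E.P k).Lam × ℝ))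
    (hW : ∀ᶠ k in uf, ((Y k).restr (keep k) (S' k)).WF)
    (hB : ∀ τ : ℝ, 0 < τ → ∀ᶠ k in uf, ((Y k).restr (keep k) (S' k)).Big (E.R.N k ^ τ)) : E.IsSys (fun k => (Y k).restr (keep k) (S' k)) r h := by
  obtain ⟨⟨M, hM⟩, hG, hq⟩ := hY
  refine ⟨⟨M, ?_⟩, ?_, hq⟩
  · filter_upwards [hM, hW] with k h1 h2
    exact ⟨h2, k2s_restr_tmp (Y k) _ _ h1.2⟩
  · intro τ hτ
    filter_upwards [hG τ hτ, hB τ hτ] with k h1 h2
    exact ⟨k2s_restr_geo (Y k) _ _ h1.1, h2⟩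

/-- **02 `a01:saturation`.**   A true system at depth `r` may be restricted (explicitly: `k2sSat` with subpower parameters) to a true system which is saturated and whose label is known by `p_r`.
PLAN: fix `τ > 0`; `hf.pure r hr` gives `c > 0` with `mass (above (hid a_r) (N^{-f+τ})) ≤ N^{-c}` eventually; with `τ' = min τ (c/2)` eventually `Geo, Big, Tru` hold with `K = N^{τ'}` and `32 K mass ≤ 1`.
So `p k τ := ∃ K, 1 ≤ K ∧ K ≤ N^τ ∧ (hypotheses of k2s_saturation at k with K, H = N^τ)` holds eventually; `kb_slow`; choose `K k`; conclude by `k2s_saturation`, `k2s_of_subp`, `k2s_isSys_restr`. -/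
theorem k2s_saturation_seq {f : ℝ → ℝ → ℝ} (hE : E.Ok) (hf : E.Hom f) (Y : E.Sys) {r h : ℝ} (hr : r ∈ Set.Icc 0 E.L) (hY : E.IsTrueSys f Y r h) :
    ∃ K H : ℕ → ℝ, KbSubP E.R K ∧ KbSubP E.R H ∧
      E.IsTrueSys f (fun k => k2sSat (Y k) (K k) (H k) (E.a r k) (E.R.N k ^ (-(f r 0)))) r h ∧
      E.IsSat (fun k => k2sSat (Y k) (K k) (H k) (E.a r k) (E.R.N k ^ (-(f r 0)))) (f r 0) ∧
      E.IsKnown (fun k => k2sSat (Y k) (K k) (H k) (E.a r k) (E.R.N k ^ (-(f r 0)))) r := by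
  obtain ⟨hSys, hTru⟩ := hY
  obtain ⟨-, ⟨MP, hMP⟩, -⟩ := id hE
  obtain ⟨⟨MY, hMY⟩, hGB, hq⟩ := id hSys
  -- one subpower slack for the three hypotheses
  obtain ⟨τ0, hτ0, -, hK, hK0⟩ := kb_slow E.R
    (fun k τ => (Y k).Geo (E.R.N k ^ τ) (E.a r k) ∧ (Y k).Big (E.R.N k ^ τ) ∧ (Y k).Tru (E.R.N k ^ τ) (E.R.N k ^ (-(f r 0))))
    (fun τ hτ => by
      filter_upwards [hGB τ hτ, hTru τ hτ] with k h1 h2
      exact ⟨h1.1, h1.2, h2⟩)
  set K : ℕ → ℝ := fun k => E.R.N k ^ τ0 k with hKdef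
  have h32 : KbSubP E.R fun k => 32 * K k := kb_subp_mul E.R (kb_subp_const E.R (C := 32) (by norm_num)) hK
  -- the ceiling
  obtain ⟨τ1, hτ1, -, hH, hH0⟩ := kb_slow E.R
    (fun k τ => ENNReal.ofReal (32 * K k) *
      (E.P k).mass ((E.P k).above ((E.P k).hid (E.a r k)) (E.R.N k ^ τ * E.R.N k ^ (-(f r 0)))) ≤ 1)
    (fun τ hτ => by
      have h1 := k2s_pow_lt E _ hE ((hf.pure r hr).1 τ hτ) h32
      filter_upwards [h1] with k hk
      have e : E.R.N k ^ τ * E.R.N k ^ (-(f r 0)) = E.R.N k ^ (-(f r 0) + τ) := by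
        rw [← Real.rpow_add (kb_res_pos E.R k)]
        congr 1
        ring
      rw [e]
      exact hk)
  set H : ℕ → ℝ := fun k => E.R.N k ^ τ1 k with hHdef
  have hK1 : ∀ k, 1 ≤ K k := fun k => Real.one_le_rpow (kb_res_one_le E.R k) (hτ0 k).le
  have hH1 : ∀ k, 1 ≤ H k := fun k => Real.one_le_rpow (kb_res_one_le E.R k) (hτ1 k).le
  have hn : ∀ k, 0 ≤ E.R.N k ^ (-(f r 0)) := fun k => (Real.rpow_pos_of_pos (kb_res_pos E.R k) _).le
  have ha : ∀ k, 0 < E.a r k := fun k => Real.rpow_pos_of_pos (kb_res_pos E.R k) _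
  have hmain : ∀ᶠ k in uf,
      (k2sSat (Y k) (K k) (H k) (E.a r k) (E.R.N k ^ (-(f r 0)))).WF ∧
      (k2sSat (Y k) (K k) (H k) (E.a r k) (E.R.N k ^ (-(f r 0)))).Geo (K k) (E.a r k) ∧
      (k2sSat (Y k) (K k) (H k) (E.a r k) (E.R.N k ^ (-(f r 0)))).Big (2 * K k) ∧
      (k2sSat (Y k) (K k) (H k) (E.a r k) (E.R.N k ^ (-(f r 0)))).Tru (2 * K k) (E.R.N k ^ (-(f r 0))) ∧
      (k2sSat (Y k) (K k) (H k) (E.a r k) (E.R.N k ^ (-(f r 0)))).Sat (1024 * K k ^ 5 * H k) (E.R.N k ^ (-(f r 0))) ∧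
      (k2sSat (Y k) (K k) (H k) (E.a r k) (E.R.N k ^ (-(f r 0)))).Known ((E.P k).hid (E.a r k)) (1024 * K k ^ 5 * H k) := by
    filter_upwards [hMP, hMY, hK0, hH0] with k h1 h2 h3 h4
    exact k2s_saturation (Y k) h1.1 h2.1 (hK1 k) (hH1 k) (ha k) (hn k) h3.1 h3.2.1 h3.2.2 h4
  have h2K : KbSubP E.R fun k => 2 * K k := kb_subp_mul E.R (kb_subp_const E.R (C := 2) (by norm_num)) hK
  have hbig : KbSubP E.R fun k => 1024 * K k ^ 5 * H k :=
    kb_subp_mul E.R (kb_subp_mul E.R (kb_subp_const E.R (C := 1024) (by norm_num)) (k2s_subp_npow E.R hK 5)) hH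
  refine ⟨K, H, hK, hH, ⟨?_, ?_⟩, ?_, ?_⟩
  · refine k2s_isSys_restr_ev E Y hSys _ _ (hmain.mono fun k hk => hk.1) ?_
    intro τ hτ
    filter_upwards [hmain, h2K τ hτ] with k h1 h2
    exact k2s_big_mono _ h1.2.2.1 h2.2
  · intro τ hτ
    filter_upwards [hmain, h2K τ hτ] with k h1 h2
    exact k2s_tru_mono _ h1.2.2.2.1 h2.2
  · intro τ hτ
    filter_upwards [hmain, hbig τ hτ] with k h1 h2
    exact k2s_sat_mono _ h1.2.2.2.2.1 h2.2 (hn k)
  · intro τ hτ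
    filter_upwards [hmain, hbig τ hτ] with k h1 h2
    exact k2s_known_mono _ h1.2.2.2.2.2 h2.2

/-- in particular a true system contains a known atlas -/
theorem k2s_true_atlas {f : ℝ → ℝ → ℝ} (hE : E.Ok) (hf : E.Hom f) (Y : E.Sys) {r h : ℝ} (hr : r ∈ Set.Icc 0 E.L) (hY : E.IsTrueSys f Y r h) :
    ∃ Y' : E.Sys, E.IsTrueSys f Y' r h ∧ E.IsSat Y' (f r 0) ∧ E.IsKnown Y' r ∧ E.IsAtlas Y' r h := by
  obtain ⟨K, H, -, -, h1, h2, h3⟩ := k2s_saturation_seq E hE hf Y hr hY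
  exact ⟨_, h1, h2, h3, h1.1, k2s_isKnown_mono E hE _ hr.2 h3⟩

/-! ## 3. The largest axis  (L-252-K2S-Q3) -/

open Classical in
/-- the weighted selected mass of the charts with `|D_c| ≤ ρ q` -/
def k2sThin {P : KbPb v} (Y : KbSys P) (ρ : ℝ) : ℝ≥0∞ := ∑ c with kbMn (Y.ch c).D ≤ ρ * Y.q, P.om (Y.wd c) * Y.mC c

open Classical in
theorem k2sThin_eqns_cite {P : KbPb v} (Y : KbSys P) (ρ : ℝ) : k2sThin Y ρ = ∑ c with kbMn (Y.ch c).D ≤ ρ * Y.q, P.om (Y.wd c) * Y.mC c := rfl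

/-- power smallness passes to eventually smaller sequences -/
theorem k2s_pow_mono (R : KbRes) {x y : ℕ → ℝ} (h : KbPow R y) (hxy : ∀ᶠ k in uf, x k ≤ y k) : KbPow R x := by
  obtain ⟨c, hc, h1⟩ := h
  refine ⟨c, hc, ?_⟩
  filter_upwards [h1, hxy] with k a1 a2
  exact a2.trans a1

/-- the thin charts weigh at most the whole system -/
theorem k2s_thin_le_mass {P : KbPb v} (Y : KbSys P) (ρ : ℝ) : k2sThin Y ρ ≤ Y.mass := by
  classical
  rw [k2sThin_eqns_cite]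
  exact Finset.sum_le_sum_of_subset (Finset.filter_subset _ _)

/-- a constant times a negative power is power small -/
theorem k2s_pow_const (R : KbRes) (C : ℝ) {c : ℝ} (hc : 0 < c) : KbPow R fun k => C * R.N k ^ (-c) := by
  refine ⟨c / 2, by positivity, ?_⟩
  filter_upwards [(kb_rpow_tendsto R (half_pos hc)).eventually_ge_atTop C] with k hk
  calc C * R.N k ^ (-c) ≤ R.N k ^ (c / 2) * R.N k ^ (-c) :=
        mul_le_mul_of_nonneg_right hk (Real.rpow_pos_of_pos (kb_res_pos R k) _).le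
    _ = R.N k ^ (-(c / 2)) := by
        rw [← Real.rpow_add (kb_res_pos R k)]
        congr 1
        ring

theorem k2s_j_le_two (v : KbVer) : v.j ≤ 2 := by
  cases v <;> simp [KbVer.j]

/-- **02 `a01:largest-axis`, quantitative form.**   In a cap-class problem the charts of a known atlas with `|D_c| ≤ N^{-α} q` carry power-small mass.
PLAN: `u = min (α/2) (η L) > 0`, `b = a_u ≥ ρ = N^{-α}`, `τ = S u / 8`, `hi = N^{-f L u + τ}`, `lo = N^{-f L 0 - τ}`, `κ = N^{-S u + 2 τ}` (`hi ≤ κ lo` by `hE.ang`), `K = N^{τ/8}`;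
`k2s_axis` + `k2s_axis_exc`; the two exceptional masses are power small (`hE.hom.joint`, `hE.hom.pure` at `r = L`), `K (10K)^j κ ≤ 100 N^{-S u + 3 τ}`, `tot ≤ 1`; `kb_pow_add`. -/
theorem k2s_axis_seq {d S η : ℝ} {f : ℝ → ℝ → ℝ} (hS : 0 < S) (hη : 0 < η) (hE : E.Cap d S η f) (Y : E.Sys) {r h : ℝ} (hY : E.IsAtlas Y r h) {α : ℝ} (hα : 0 < α) :
    KbPow E.R fun k => (k2sThin (Y k) (E.R.N k ^ (-α))).toReal := by
  obtain ⟨hSys, hKn⟩ := hY
  obtain ⟨hL, ⟨MP, hMP⟩, -⟩ := id hE.ok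
  obtain ⟨⟨MY, hMY⟩, hGB, -⟩ := id hSys
  set u : ℝ := min (α / 2) (η * E.L) with hu
  have hu0 : 0 < u := lt_min (by positivity) (by positivity)
  have huα : u ≤ α := (min_le_left _ _).trans (by linarith)
  have huη : u ≤ η * E.L := min_le_right _ _
  set τ : ℝ := S * u / 8 with hτ
  have hτ0 : 0 < τ := by positivity
  have hLmem : E.L ∈ Set.Icc 0 E.L := ⟨hL.le, le_rfl⟩
  have hang := hE.ang u hu0 huη
  have hA := (hE.hom.joint E.L hLmem u hu0.le).1 τ hτ0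
  have hB := (hE.hom.pure E.L hLmem).2 τ hτ0
  have hC : KbPow E.R fun k => 100 * E.R.N k ^ (-(5 * τ)) := k2s_pow_const E.R 100 (by positivity)
  refine k2s_pow_mono E.R (kb_pow_add E.R (kb_pow_add E.R hA hB) hC) ?_
  filter_upwards [hMP, hMY, hGB (τ / 8) (by positivity), hKn (τ / 8) (by positivity)] with k h1 h2 h3 h4
  have hN0 : 0 < E.R.N k := kb_res_pos E.R k
  have hN1 : 1 ≤ E.R.N k := kb_res_one_le E.R k
  set K : ℝ := E.R.N k ^ (τ / 8) with hK
  set κ : ℝ := E.R.N k ^ (-(S * u) + 2 * τ) with hκ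
  have hK1 : 1 ≤ K := Real.one_le_rpow hN1 (by positivity)
  have hκ0 : 0 < κ := Real.rpow_pos_of_pos hN0 _
  have hax := k2s_axis (Y k) h1.1 h2.1 (K := K) (a := E.a r k) (aL := E.a E.L k) (b := E.a u k) (ρ := E.R.N k ^ (-α)) (κ := κ)
    hK1 (Real.rpow_pos_of_pos hN0 _).le
    (Real.rpow_le_rpow_of_exponent_le hN1 (neg_le_neg huα)) (Real.rpow_pos_of_pos hN0 _) hκ0.le h3.1 h4
  have hexc : ∀ γ, {x | ENNReal.ofReal κ * (E.P k).dn ((E.P k).hid (E.a E.L k)) γ x < (E.P k).dn ((E.P k).hv (E.a E.L k) (E.a u k)) γ x} ⊆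
      (E.P k).above ((E.P k).hv (E.a E.L k) (E.a u k)) (E.R.N k ^ (-(f E.L u) + τ)) γ ∪
        (E.P k).below ((E.P k).hid (E.a E.L k)) (E.R.N k ^ (-(f E.L 0) - τ)) γ := by
    intro γ
    refine k2s_axis_exc (E.P k) (Real.rpow_pos_of_pos hN0 _) ?_ γ
    rw [hκ, ← Real.rpow_add hN0]
    refine Real.rpow_le_rpow_of_exponent_le hN1 ?_
    linarith
  have hm1 := (k2s_mass_mono (E.P k) hexc).trans (k2s_mass_union (E.P k) _ _)
  have htot : (E.P k).tot ≤ 1 := k2s_tot_le (E.P k) h1.1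
  have hfinA : (E.P k).mass ((E.P k).above ((E.P k).hv (E.a E.L k) (E.a u k)) (E.R.N k ^ (-(f E.L u) + τ))) ≠ ⊤ :=
    ne_top_of_le_ne_top ENNReal.one_ne_top ((k2s_mass_le_tot (E.P k) _).trans htot)
  have hfinB : (E.P k).mass ((E.P k).below ((E.P k).hid (E.a E.L k)) (E.R.N k ^ (-(f E.L 0) - τ))) ≠ ⊤ :=
    ne_top_of_le_ne_top ENNReal.one_ne_top ((k2s_mass_le_tot (E.P k) _).trans htot)
  have hthird : K * (10 * K) ^ v.j * κ ≤ 100 * E.R.N k ^ (-(5 * τ)) := by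
    have hj : (10 * K) ^ v.j ≤ (10 * K) ^ 2 := pow_le_pow_right₀ (by linarith) (k2s_j_le_two v)
    have hK3 : K * (10 * K) ^ 2 = 100 * E.R.N k ^ (3 * (τ / 8)) := by
      have : E.R.N k ^ (3 * (τ / 8)) = K ^ 3 := by
        rw [hK, ← Real.rpow_natCast, ← Real.rpow_mul hN0.le]
        congr 1
        push_cast
        ring
      rw [this]
      ring
    calc K * (10 * K) ^ v.j * κ ≤ K * (10 * K) ^ 2 * κ := by
          refine mul_le_mul_of_nonneg_right ?_ hκ0.le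
          exact mul_le_mul_of_nonneg_left hj (by linarith)
      _ = 100 * (E.R.N k ^ (3 * (τ / 8)) * κ) := by rw [hK3]; ring
      _ = 100 * E.R.N k ^ (3 * (τ / 8) + (-(S * u) + 2 * τ)) := by rw [hκ, ← Real.rpow_add hN0]
      _ ≤ 100 * E.R.N k ^ (-(5 * τ)) := by
          refine mul_le_mul_of_nonneg_left (Real.rpow_le_rpow_of_exponent_le hN1 ?_) (by norm_num)
          have : S * u = 8 * τ := by rw [hτ]; ring
          linarith
  have hall : k2sThin (Y k) (E.R.N k ^ (-α)) ≤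
      (E.P k).mass ((E.P k).above ((E.P k).hv (E.a E.L k) (E.a u k)) (E.R.N k ^ (-(f E.L u) + τ))) +
        (E.P k).mass ((E.P k).below ((E.P k).hid (E.a E.L k)) (E.R.N k ^ (-(f E.L 0) - τ))) +
        ENNReal.ofReal (100 * E.R.N k ^ (-(5 * τ))) := by
    rw [k2sThin_eqns_cite]
    refine hax.trans (add_le_add hm1 ?_)
    calc ENNReal.ofReal (K * (10 * K) ^ v.j * κ) * (E.P k).tot ≤ ENNReal.ofReal (K * (10 * K) ^ v.j * κ) * 1 := by gcongr
      _ = ENNReal.ofReal (K * (10 * K) ^ v.j * κ) := mul_one _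
      _ ≤ _ := ENNReal.ofReal_le_ofReal hthird
  have h100 : (0 : ℝ) ≤ 100 * E.R.N k ^ (-(5 * τ)) := by positivity
  have := ENNReal.toReal_mono (ENNReal.add_ne_top.2 ⟨ENNReal.add_ne_top.2 ⟨hfinA, hfinB⟩, ENNReal.ofReal_ne_top⟩) hall
  rw [ENNReal.toReal_add (ENNReal.add_ne_top.2 ⟨hfinA, hfinB⟩) ENNReal.ofReal_ne_top, ENNReal.toReal_add hfinA hfinB,
    ENNReal.toReal_ofReal h100] at this
  exact this

/-- **02 `a01:largest-axis`.**   After deleting the thin charts (threshold `ρ k`, inverse subpower) the atlas is still an atlas and `|D_c| ≥ ρ q` for every label.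
PLAN: for fixed `α`, eventually `2 * k2sThin (Y k) (N^{-α}) ≤ (Y k).mass` (power small against inverse subpower); `kb_slow` gives `α k → 0`; `ρ k = N^{-α k}`; `k2s_axis_restr`: the new mass is `≥ mass / 2`. -/
theorem k2s_axis_full {d S η : ℝ} {f : ℝ → ℝ → ℝ} (hS : 0 < S) (hη : 0 < η) (hE : E.Cap d S η f) (Y : E.Sys) {r h : ℝ} (hY : E.IsAtlas Y r h) :
    ∃ ρ : ℕ → ℝ, (∀ k, 0 < ρ k) ∧ (KbSubP E.R fun k => 1 / ρ k) ∧
      E.IsAtlas (fun k => (Y k).restr {c | ρ k * (Y k).q < kbMn ((Y k).ch c).D} fun _ => Set.univ) r h ∧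
      (∀ e : ℝ, E.IsTrue Y e → E.IsTrue (fun k => (Y k).restr {c | ρ k * (Y k).q < kbMn ((Y k).ch c).D} fun _ => Set.univ) e) ∧
      (∀ e : ℝ, E.IsSat Y e → E.IsSat (fun k => (Y k).restr {c | ρ k * (Y k).q < kbMn ((Y k).ch c).D} fun _ => Set.univ) e) := by
  obtain ⟨hSys, hKn⟩ := id hY
  obtain ⟨hL, ⟨MP, hMP⟩, -⟩ := id hE.ok
  obtain ⟨⟨MY, hMY⟩, hGB, -⟩ := id hSys
  -- for a fixed exponent the thin charts weigh at most half of the system
  obtain ⟨α, hα0, -, hsub, hhalf⟩ := kb_slow E.R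
    (fun k α => 2 * k2sThin (Y k) (E.R.N k ^ (-α)) ≤ (Y k).mass)
    (fun α hα => by
      obtain ⟨c, hc, h1⟩ := k2s_axis_seq E hS hη hE Y hY hα
      filter_upwards [h1, hMP, hMY, hGB (c / 2) (by positivity),
        (kb_rpow_tendsto E.R (half_pos hc)).eventually_ge_atTop 2] with k a1 a2 a3 a4 a5
      have hN0 : 0 < E.R.N k := kb_res_pos E.R k
      have hfin : k2sThin (Y k) (E.R.N k ^ (-α)) ≠ ⊤ :=
        ne_top_of_le_ne_top ENNReal.one_ne_top ((k2s_thin_le_mass (Y k) _).trans (k2s_mass_le_one (Y k) a2.1 a3.1))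
      have hthin : k2sThin (Y k) (E.R.N k ^ (-α)) ≤ ENNReal.ofReal (E.R.N k ^ (-c)) :=
        (ENNReal.le_ofReal_iff_toReal_le hfin (Real.rpow_pos_of_pos hN0 _).le).2 a1
      have hbig : 1 ≤ ENNReal.ofReal (E.R.N k ^ (c / 2)) * (Y k).mass := a4.2
      have hp : 0 < E.R.N k ^ (c / 2) := Real.rpow_pos_of_pos hN0 _
      -- `2 N^{-c} N^{c/2} ≤ 1`
      have hnum : 2 * E.R.N k ^ (-c) * E.R.N k ^ (c / 2) ≤ 1 := by
        have e : E.R.N k ^ (-c) * E.R.N k ^ (c / 2) = (E.R.N k ^ (c / 2))⁻¹ := by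
          rw [← Real.rpow_add hN0, ← Real.rpow_neg hN0.le]
          congr 1
          ring
        rw [mul_assoc, e, ← div_eq_mul_inv, div_le_one hp]
        exact a5
      calc 2 * k2sThin (Y k) (E.R.N k ^ (-α)) ≤ 2 * ENNReal.ofReal (E.R.N k ^ (-c)) := by gcongr
        _ = 2 * ENNReal.ofReal (E.R.N k ^ (-c)) * 1 := (mul_one _).symm
        _ ≤ 2 * ENNReal.ofReal (E.R.N k ^ (-c)) * (ENNReal.ofReal (E.R.N k ^ (c / 2)) * (Y k).mass) := by gcongr
        _ = ENNReal.ofReal (2 * E.R.N k ^ (-c) * E.R.N k ^ (c / 2)) * (Y k).mass := by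
            rw [ENNReal.ofReal_mul (by positivity), ENNReal.ofReal_mul (by norm_num), ← mul_assoc]
            norm_num
        _ ≤ 1 * (Y k).mass := by
            gcongr
            exact ENNReal.ofReal_le_one.2 hnum
        _ = (Y k).mass := one_mul _)
  set ρ : ℕ → ℝ := fun k => E.R.N k ^ (-(α k)) with hρ
  have hρ0 : ∀ k, 0 < ρ k := fun k => Real.rpow_pos_of_pos (kb_res_pos E.R k) _
  have hinv : (fun k => 1 / ρ k) = fun k => E.R.N k ^ α k := by
    funext k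
    rw [hρ]
    simp only
    rw [Real.rpow_neg (kb_res_pos E.R k).le, one_div, inv_inv]
  -- the new mass is at least one half of the old mass
  have hmass : ∀ᶠ k in uf, (Y k).mass ≤ 2 * ((Y k).restr {c | ρ k * (Y k).q < kbMn ((Y k).ch c).D} fun _ => Set.univ).mass := by
    filter_upwards [hhalf, hMP, hMY] with k a1 a2 a3
    have hr := k2s_axis_restr (Y k) (ρ k)
    rw [← k2sThin_eqns_cite] at hr
    have hfinM : (Y k).mass ≠ ⊤ := ne_top_of_le_ne_top ENNReal.one_ne_top (k2s_mass_le_one (Y k) a2.1 a3.1)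
    have hfinT : k2sThin (Y k) (ρ k) ≠ ⊤ := ne_top_of_le_ne_top hfinM (k2s_thin_le_mass (Y k) _)
    have h2 : 2 * (Y k).mass ≤ 2 * ((Y k).restr {c | ρ k * (Y k).q < kbMn ((Y k).ch c).D} fun _ => Set.univ).mass + (Y k).mass := by
      calc 2 * (Y k).mass ≤ 2 * (((Y k).restr {c | ρ k * (Y k).q < kbMn ((Y k).ch c).D} fun _ => Set.univ).mass + k2sThin (Y k) (ρ k)) := by
            gcongr
        _ = 2 * ((Y k).restr {c | ρ k * (Y k).q < kbMn ((Y k).ch c).D} fun _ => Set.univ).mass + 2 * k2sThin (Y k) (ρ k) := mul_add _ _ _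
        _ ≤ _ := by gcongr
    rw [two_mul (Y k).mass] at h2
    exact (ENNReal.add_le_add_iff_right hfinM).1 h2
  have hB : ∀ τ : ℝ, 0 < τ → ∀ᶠ k in uf,
      ((Y k).restr {c | ρ k * (Y k).q < kbMn ((Y k).ch c).D} fun _ => Set.univ).Big (E.R.N k ^ τ) := by
    intro τ hτ
    filter_upwards [hmass, hGB (τ / 2) (by positivity), (kb_rpow_tendsto E.R (half_pos hτ)).eventually_ge_atTop 2] with k a1 a2 a3
    have hp : 0 < E.R.N k ^ (τ / 2) := Real.rpow_pos_of_pos (kb_res_pos E.R k) _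
    have hbig : 1 ≤ ENNReal.ofReal (E.R.N k ^ (τ / 2)) * (Y k).mass := a2.2
    show 1 ≤ ENNReal.ofReal (E.R.N k ^ τ) * _
    calc (1 : ℝ≥0∞) ≤ ENNReal.ofReal (E.R.N k ^ (τ / 2)) * (Y k).mass := hbig
      _ ≤ ENNReal.ofReal (E.R.N k ^ (τ / 2)) *
            (2 * ((Y k).restr {c | ρ k * (Y k).q < kbMn ((Y k).ch c).D} fun _ => Set.univ).mass) := by gcongr
      _ = ENNReal.ofReal (E.R.N k ^ (τ / 2) * 2) * ((Y k).restr {c | ρ k * (Y k).q < kbMn ((Y k).ch c).D} fun _ => Set.univ).mass := by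
          rw [ENNReal.ofReal_mul hp.le, ← mul_assoc]
          norm_num
      _ ≤ _ := by
          gcongr
          rw [← kb_rpow_half E.R τ k]
          exact mul_le_mul_of_nonneg_left a3 hp.le
  refine ⟨ρ, hρ0, by rw [hinv]; exact hsub, ⟨?_, ?_⟩, ?_, ?_⟩
  · refine k2s_isSys_restr_ev E Y hSys _ _ ?_ hB
    filter_upwards [hMY] with k a1
    exact k2s_restr_wf (Y k) _ _ a1.1 fun _ => MeasurableSet.univ
  · intro τ hτ
    filter_upwards [hKn τ hτ] with k a1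
    exact k2s_restr_known (Y k) _ _ a1
  · intro e he τ hτ
    filter_upwards [he τ hτ] with k a1
    exact k2s_restr_univ_tru (Y k) _ a1
  · intro e he τ hτ
    filter_upwards [he τ hτ] with k a1
    exact k2s_restr_univ_sat (Y k) _ a1

end

end Claimed.Agent.R252
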