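import Claimed.Agent.R252.Base.HubDefs
import Claimed.Agent.R252.S2s.SeqS

/-!
# ROW 252 (S0492), unit S2s (post BP-252-S2aB, architect helper78; prefix `k2s_`), file 6: THE HUBS `kb_sat`, `kb_known_mono`, `kb_axis` OF `Base/Hub2`, verbatim, from the sequence forms of `SeqS`.
No `sorry` in this file.   `Base/Hub2` may import it and close the three hubs in one line each.
-/

set_option autoImplicit false

namespace Claimed.Agent.R252

open MeasureTheory Filter Topology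
open Claimed.Agent.R255 (uf)
open scoped ENNReal BigOperators

noncomputable section

variable {v : KbVer}

/-- = `kb_sat` -/
theorem k2s_hub_sat (E : KbEx v) (hE : E.Ok) (f : ℝ → ℝ → ℝ) (hf : E.Hom f) (Y : E.Sys) (r h : ℝ) (hr : 0 < r) (hrL : r ≤ E.L)
    (hY : E.IsTrueSys f Y r h) :
    ∃ (keep : ∀ k, Set (Y k).C) (S' : ∀ k, (Y k).C → Set ((E.P k).Lam × ℝ)),
      E.IsTrueSys f (E.restr Y keep S') r h ∧ E.IsSat (E.restr Y keep S') (f r 0) ∧ E.IsKnown (E.restr Y keep S') r := by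
  obtain ⟨K, H, -, -, h1, h2, h3⟩ := k2s_saturation_seq E hE hf Y ⟨hr.le, hrL⟩ hY
  exact ⟨fun k => k2sKeep (Y k) (K k) (k2sR (Y k) (K k) (E.a r k) (H k * E.R.N k ^ (-(f r 0))) (1024 * K k ^ 5 * H k)),
    fun k c => k2sR (Y k) (K k) (E.a r k) (H k * E.R.N k ^ (-(f r 0))) (1024 * K k ^ 5 * H k) ((Y k).wd c), h1, h2, h3⟩

/-- = `kb_known_mono` -/
theorem k2s_hub_known_mono (E : KbEx v) (hE : E.Ok) (Y : E.Sys) (s s' : ℝ) (hs : s ≤ s') (h : E.IsKnown Y s) : E.IsKnown Y s' :=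
  k2s_isKnown_mono E hE Y hs h

/-- = `kb_axis` -/
theorem k2s_hub_axis (E : KbEx v) (d S η : ℝ) (hS : 0 < S) (hη : 0 < η) (f : ℝ → ℝ → ℝ) (hE : E.Cap d S η f) (Y : E.Sys) (r h : ℝ)
    (hY : E.IsAtlas Y r h) (α : ℝ) (hα : 0 < α) :
    KbPow E.R (E.chMass Y fun k c => kbMn ((Y k).ch c).D ≤ E.R.N k ^ (-α) * (Y k).q) := by
  have h1 := k2s_axis_seq E hS hη hE Y hY hα
  have e : (E.chMass Y fun k c => kbMn ((Y k).ch c).D ≤ E.R.N k ^ (-α) * (Y k).q) = fun k => (k2sThin (Y k) (E.R.N k ^ (-α))).toReal := by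
    funext k
    unfold KbEx.chMass k2sThin
    rw [Finset.sum_filter]
  rw [e]
  exact h1

end

end Claimed.Agent.R252
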