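import Claimed.Agent.R252.Base.Sys
import Claimed.Agent.R252.Remez.Misc

/-!
# ROW 252 (S0492), unit S2s (post BP-252-S2aB, architect helper78; prefix `k2s_`), file 1: BASIC API OVER `Base/Pb`, `Base/Sys`.      CLOSED: all leaves proved 19:47Z.

PAPER-FREE.  ONE scale, explicit slacks.  STATEMENTS ARE FROZEN (defects: message to helper78).  (Provers: helpers 104, 68, 181, 138, 287, 152, 100, 61, 32, 193, 78.)
* s1  the incidence measures (finite, `≤ ν × dt`, masses)                                   L-252-K2S-A1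
* s2  measurability of base, labels, densities                                              L-252-K2S-A2
* s3  `part ≪ volume`, `part = ∫ den`                                                       L-252-K2S-A3
* s4  the two counting lemmas ("the volume calculation")                                    L-252-K2S-A4
* s5  dyadic rounding and bins                                                              L-252-K2S-A5
* s6  monotonicity in the slack                                                             L-252-K2S-A6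
* s7  restriction of a system                                                               L-252-K2S-A7
* s8  the assignment budget (2.12), disjointness of the selections                          L-252-K2S-A8
* s9  geometry of one chart: velocity, base region and its volume                           L-252-K2S-A9
-/

set_option autoImplicit false

namespace Claimed.Agent.R252

open MeasureTheory
open scoped ENNReal BigOperators

noncomputable section

variable {v : KbVer}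

/-! ## 1. The incidence measures  (L-252-K2S-A1) -/

section meas

variable (P : KbPb v)

theorem k2s_tm_univ : KbPb.tm Set.univ = 1 := by
  unfold KbPb.tm
  rw [Measure.restrict_apply_univ, Real.volume_Icc]
  simp

theorem k2s_tm_le (I : Set ℝ) : KbPb.tm I ≤ volume I :=
  Measure.restrict_le_self I

theorem k2s_mu_le (γ : P.W) : P.mu γ ≤ (P.nu γ).prod KbPb.tm :=
  Measure.restrict_le_self

/-- `μ_γ (A × I) ≤ ν_γ (A) |I|` -/
theorem k2s_mu_rect (hP : P.WF) (γ : P.W) (A : Set P.Lam) (I : Set ℝ) : P.mu γ (A ×ˢ I) ≤ P.nu γ A * volume I := by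
  have := hP.prob γ
  have hs : SFinite (KbPb.tm) := by unfold KbPb.tm; infer_instance
  calc P.mu γ (A ×ˢ I) ≤ (P.nu γ).prod KbPb.tm (A ×ˢ I) := k2s_mu_le P γ _
    _ = P.nu γ A * KbPb.tm I := Measure.prod_prod A I
    _ ≤ P.nu γ A * volume I := mul_le_mul_right (k2s_tm_le I) _

theorem k2s_mu_univ (hP : P.WF) (γ : P.W) : P.mu γ Set.univ ≤ 1 := by
  have := hP.prob γ
  have hs : SFinite (KbPb.tm) := by unfold KbPb.tm; infer_instance
  calc P.mu γ Set.univ ≤ (P.nu γ).prod KbPb.tm Set.univ := k2s_mu_le P γ _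
    _ = P.nu γ Set.univ * KbPb.tm Set.univ := by rw [← Set.univ_prod_univ, Measure.prod_prod]
    _ = 1 := by rw [k2s_tm_univ, measure_univ, one_mul]

theorem k2s_mu_finite (hP : P.WF) (γ : P.W) : IsFiniteMeasure (P.mu γ) :=
  ⟨lt_of_le_of_lt (k2s_mu_univ P hP γ) ENNReal.one_lt_top⟩

/-- the incidence measure lives on the event -/
theorem k2s_mu_compl (hP : P.WF) (γ : P.W) : P.mu γ (P.Ev γ)ᶜ = 0 := by
  unfold KbPb.mu
  rw [Measure.restrict_apply (hP.Ev_meas γ).compl, Set.compl_inter_self, measure_empty]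

theorem k2s_mass_mono {S S' : P.W → Set (P.Lam × ℝ)} (h : ∀ γ, S γ ⊆ S' γ) : P.mass S ≤ P.mass S' :=
  Finset.sum_le_sum fun γ _ => mul_le_mul_right (measure_mono (h γ)) _

theorem k2s_mass_union (S S' : P.W → Set (P.Lam × ℝ)) : P.mass (fun γ => S γ ∪ S' γ) ≤ P.mass S + P.mass S' := by
  unfold KbPb.mass
  rw [← Finset.sum_add_distrib]
  refine Finset.sum_le_sum fun γ _ => ?_
  rw [← mul_add]
  exact mul_le_mul_right (measure_union_le _ _) _

theorem k2s_mass_le_tot (S : P.W → Set (P.Lam × ℝ)) : P.mass S ≤ P.tot :=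
  k2s_mass_mono P fun _ => Set.subset_univ _

theorem k2s_tot_le (hP : P.WF) : P.tot ≤ 1 := by
  calc P.tot = ∑ γ, P.om γ * P.mu γ Set.univ := rfl
    _ ≤ ∑ γ, P.om γ * 1 := Finset.sum_le_sum fun γ _ => mul_le_mul_right (k2s_mu_univ P hP γ) _
    _ = 1 := by simp only [mul_one]; exact hP.om_sum

/-- the measure of a further selection -/
theorem k2s_sel_mu (hP : P.WF) (S : P.W → Set (P.Lam × ℝ)) (hS : ∀ γ, MeasurableSet (S γ)) (γ : P.W) :
    (P.sel S).mu γ = (P.mu γ).restrict (S γ) := by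
  show ((P.nu γ).prod KbPb.tm).restrict (P.Ev γ ∩ S γ) = (((P.nu γ).prod KbPb.tm).restrict (P.Ev γ)).restrict (S γ)
  rw [Measure.restrict_restrict (hS γ), Set.inter_comm]

/-! ## 2. Measurability  (L-252-K2S-A2) -/

theorem k2s_bs_meas (hP : P.WF) (γ : P.W) : Measurable (P.bs γ) := by
  have hc : Measurable fun x : P.Lam × ℝ => P.co γ x.1 := (hP.co_meas γ).comp measurable_fst
  refine measurable_snd.prodMk (measurable_pi_iff.2 fun i => ?_)
  show Measurable fun x : P.Lam × ℝ => (P.co γ x.1).1 i + x.2 * (P.co γ x.1).2.1 i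
  exact ((measurable_pi_apply i).comp hc.fst).add
    (measurable_snd.mul ((measurable_pi_apply i).comp hc.snd.fst))

theorem k2s_hw_meas (hP : P.WF) (γ : P.W) : Measurable (P.hw γ) := by
  have hc : Measurable fun x : P.Lam × ℝ => P.co γ x.1 := (hP.co_meas γ).comp measurable_fst
  show Measurable fun x : P.Lam × ℝ => ∑ i, (P.co γ x.1).2.2 i * x.2 ^ (i : ℕ)
  exact Finset.measurable_fun_sum _ fun i _ =>
    ((measurable_pi_apply i).comp hc.snd.snd).mul (measurable_snd.pow_const _)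

theorem k2s_hid_meas (hP : P.WF) (a : ℝ) : P.LabMeas (P.hid a) := by
  intro γ d
  have h : Measurable (P.hid a γ) :=
    Int.measurable_floor.comp ((k2s_hw_meas P hP γ).div_const _)
  exact h (measurableSet_singleton d)

theorem k2s_vel_meas (hP : P.WF) (b : ℝ) : P.LabMeas (P.vel b) := by
  intro γ d
  have hc : Measurable fun x : P.Lam × ℝ => P.co γ x.1 := (hP.co_meas γ).comp measurable_fst
  have h : Measurable (P.vel b γ) := by
    refine measurable_pi_iff.2 fun i => ?_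
    exact Int.measurable_floor.comp (((measurable_pi_apply i).comp hc.snd.fst).div_const _)
  exact h (measurableSet_singleton d)

theorem k2s_lpair_meas {D D' : Type} {ℓ : P.Lab D} {ℓ' : P.Lab D'} (h : P.LabMeas ℓ) (h' : P.LabMeas ℓ') : P.LabMeas (P.lpair ℓ ℓ') := by
  rintro γ ⟨d, d'⟩
  have e : P.lpair ℓ ℓ' γ ⁻¹' {(d, d')} = ℓ γ ⁻¹' {d} ∩ ℓ' γ ⁻¹' {d'} := by
    ext x
    simp [KbPb.lpair, Prod.ext_iff]
  rw [e]
  exact (h γ d).inter (h' γ d')

theorem k2s_hv_meas (hP : P.WF) (a b : ℝ) : P.LabMeas (P.hv a b) :=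
  k2s_lpair_meas P (k2s_hid_meas P hP a) (k2s_vel_meas P hP b)

theorem k2s_den_meas {D : Type} (ℓ : P.Lab D) (γ : P.W) (d : D) : Measurable (P.den ℓ γ d) :=
  Measure.measurable_rnDeriv _ _

/-- PLAN: `{x | dn x ∈ s} = ⋃ d, ℓ γ ⁻¹' {d} ∩ bs γ ⁻¹' (den ℓ γ d ⁻¹' s)`, a countable union. -/
theorem k2s_dn_meas (hP : P.WF) {D : Type} [Countable D] {ℓ : P.Lab D} (hℓ : P.LabMeas ℓ) (γ : P.W) : Measurable (P.dn ℓ γ) := by
  intro s hs
  have e : P.dn ℓ γ ⁻¹' s = ⋃ d, ℓ γ ⁻¹' {d} ∩ P.bs γ ⁻¹' (P.den ℓ γ d ⁻¹' s) := by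
    ext x
    simp only [Set.mem_preimage, Set.mem_iUnion, Set.mem_inter_iff, Set.mem_singleton_iff]
    constructor
    · intro hx
      exact ⟨ℓ γ x, rfl, hx⟩
    · rintro ⟨d, rfl, hx⟩
      exact hx
  rw [e]
  exact MeasurableSet.iUnion fun d => (hℓ γ d).inter (k2s_bs_meas P hP γ (k2s_den_meas P ℓ γ d hs))

/-- a set of observations (a measurable set of bases for every label) is a measurable set of incidences -/
theorem k2s_obs_meas (hP : P.WF) {D : Type} [Countable D] {ℓ : P.Lab D} (hℓ : P.LabMeas ℓ) (γ : P.W) (Z : D → Set (ℝ × KbB v))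
    (hZ : ∀ d, MeasurableSet (Z d)) : MeasurableSet {x | P.bs γ x ∈ Z (ℓ γ x)} := by
  have e : {x | P.bs γ x ∈ Z (ℓ γ x)} = ⋃ d, ℓ γ ⁻¹' {d} ∩ P.bs γ ⁻¹' (Z d) := by
    ext x
    simp only [Set.mem_ofPred_eq, Set.mem_preimage, Set.mem_iUnion, Set.mem_inter_iff, Set.mem_singleton_iff]
    constructor
    · intro hx
      exact ⟨ℓ γ x, rfl, hx⟩
    · rintro ⟨d, rfl, hx⟩
      exact hx
  rw [e]
  exact MeasurableSet.iUnion fun d => (hℓ γ d).inter (k2s_bs_meas P hP γ (hZ d))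

/-! ## 3. The densities exist  (L-252-K2S-A3) -/

/-- the base map in coefficient coordinates -/
theorem k2s_shear_meas : Measurable fun p : KbTj v × ℝ => ((p.2, p.1.1 + p.2 • p.1.2.1) : ℝ × KbB v) := by
  fun_prop

theorem k2s_shear_null {Z : Set (ℝ × KbB v)} (hZ : MeasurableSet Z) (h0 : volume Z = 0) :
    (volume : Measure (KbTj v × ℝ)) ((fun p : KbTj v × ℝ => ((p.2, p.1.1 + p.2 • p.1.2.1) : ℝ × KbB v)) ⁻¹' Z) = 0 := by
  have hm : MeasurableSet ((fun p : KbTj v × ℝ => ((p.2, p.1.1 + p.2 • p.1.2.1) : ℝ × KbB v)) ⁻¹' Z) := k2s_shear_meas hZ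
  rw [Measure.volume_eq_prod, Measure.prod_apply_symm hm]
  rw [Measure.volume_eq_prod, Measure.measure_prod_null hZ] at h0
  rw [lintegral_eq_zero_iff' ?_]
  · filter_upwards [h0] with t ht
    have hmt : MeasurableSet ((fun x : KbTj v => (x, t)) ⁻¹' ((fun p : KbTj v × ℝ => ((p.2, p.1.1 + p.2 • p.1.2.1) : ℝ × KbB v)) ⁻¹' Z)) :=
      measurable_prodMk_right hm
    show (volume : Measure (KbTj v)) _ = 0
    rw [Measure.volume_eq_prod, Measure.prod_apply_symm hmt]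
    rw [lintegral_eq_zero_iff' ?_]
    · refine Filter.Eventually.of_forall fun r => ?_
      have e : ((fun x : KbB v => (x, r)) ⁻¹' ((fun x : KbTj v => (x, t)) ⁻¹' ((fun p : KbTj v × ℝ => ((p.2, p.1.1 + p.2 • p.1.2.1) : ℝ × KbB v)) ⁻¹' Z)))
          = (fun y : KbB v => y + t • r.1) ⁻¹' (Prod.mk t ⁻¹' Z) := rfl
      show (volume : Measure (KbB v)) _ = 0
      rw [e, measure_preimage_add_right]
      exact ht
    · exact (measurable_measure_prodMk_right hmt).aemeasurable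
  · exact (measurable_measure_prodMk_right hm).aemeasurable

/-- **the base of an incidence has an absolutely continuous law** (02 l.131: "at fixed `t`, replacing `y₀` by `y(t) = y₀ + t V` has Jacobian one").
PLAN: `bs γ = g ∘ Prod.map (co γ) id`, `g (l, t) = (t, l.1 + t • l.2.1)`;  `(ν.prod tm).map (Prod.map co id) = (ν.map co).prod tm ≪ volume.prod volume` (`hP.ac`, `Measure.map_prod_map`, `AbsolutelyContinuous.prod`);
for a measurable null set `Z` of `ℝ × KbB v`: `volume (g ⁻¹' Z) = ∫⁻ t, ∫⁻ (V, w), volume {y₀ | y₀ + t • V ∈ Z_t} = ∫⁻ t, ∫⁻ (V,w), volume Z_t = 0` (Tonelli + translation invariance, `measure_preimage_add_right`);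
`Z_t` is null for a.e. `t` (`Measure.ae_ae_of_ae_prod` / `Measure.measure_prod_null`). -/
theorem k2s_base_ac (hP : P.WF) (γ : P.W) : ((P.nu γ).prod KbPb.tm).map (P.bs γ) ≪ volume := by
  have := hP.prob γ
  have hco := hP.co_meas γ
  have e : P.bs γ = (fun p : KbTj v × ℝ => ((p.2, p.1.1 + p.2 • p.1.2.1) : ℝ × KbB v)) ∘ Prod.map (P.co γ) id := rfl
  have h1 : ((P.nu γ).prod KbPb.tm).map (Prod.map (P.co γ) id) = ((P.nu γ).map (P.co γ)).prod KbPb.tm := by
    have : SFinite KbPb.tm := by unfold KbPb.tm; infer_instance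
    rw [← Measure.map_prod_map _ _ hco measurable_id, Measure.map_id]
  have h2 : ((P.nu γ).map (P.co γ)).prod KbPb.tm ≪ (volume : Measure (KbTj v × ℝ)) := by
    have : SFinite KbPb.tm := by unfold KbPb.tm; infer_instance
    rw [Measure.volume_eq_prod]
    exact (hP.ac γ).prod (Measure.absolutelyContinuous_of_le Measure.restrict_le_self)
  rw [e, ← Measure.map_map k2s_shear_meas (hco.prodMap measurable_id), h1]
  refine (h2.map k2s_shear_meas).trans ?_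
  refine Measure.AbsolutelyContinuous.mk fun Z hZ h0 => ?_
  rw [Measure.map_apply k2s_shear_meas hZ]
  exact k2s_shear_null hZ h0

theorem k2s_part_le (hP : P.WF) {D : Type} (ℓ : P.Lab D) (γ : P.W) (d : D) : P.part ℓ γ d ≤ ((P.nu γ).prod KbPb.tm).map (P.bs γ) := by
  unfold KbPb.part
  exact Measure.map_mono (Measure.restrict_le_self.trans (k2s_mu_le P γ)) (k2s_bs_meas P hP γ)

theorem k2s_part_ac (hP : P.WF) {D : Type} (ℓ : P.Lab D) (γ : P.W) (d : D) : P.part ℓ γ d ≪ volume :=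
  (Measure.absolutelyContinuous_of_le (k2s_part_le P hP ℓ γ d)).trans (k2s_base_ac P hP γ)

theorem k2s_part_finite (hP : P.WF) {D : Type} (ℓ : P.Lab D) (γ : P.W) (d : D) : IsFiniteMeasure (P.part ℓ γ d) := by
  have := k2s_mu_finite P hP γ
  unfold KbPb.part
  infer_instance

/-- `part` of a measurable set of bases, as a mass of incidences -/
theorem k2s_part_apply (hP : P.WF) {D : Type} (ℓ : P.Lab D) (γ : P.W) (d : D) {Z : Set (ℝ × KbB v)} (hZ : MeasurableSet Z) :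
    P.part ℓ γ d Z = P.mu γ (P.bs γ ⁻¹' Z ∩ ℓ γ ⁻¹' {d}) := by
  unfold KbPb.part
  rw [Measure.map_apply (k2s_bs_meas P hP γ) hZ, Measure.restrict_apply (k2s_bs_meas P hP γ hZ)]

/-- PLAN: `Measure.withDensity_rnDeriv_eq` (from `k2s_part_ac`, finite measure) + `withDensity_apply`. -/
theorem k2s_part_lint (hP : P.WF) {D : Type} (ℓ : P.Lab D) (γ : P.W) (d : D) {Z : Set (ℝ × KbB v)} (hZ : MeasurableSet Z) :
    P.part ℓ γ d Z = ∫⁻ o in Z, P.den ℓ γ d o := by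
  have := k2s_part_finite P hP ℓ γ d
  unfold KbPb.den
  rw [Measure.setLIntegral_rnDeriv (k2s_part_ac P hP ℓ γ d)]

/-! ## 4. The two counting lemmas  (L-252-K2S-A4) -/

/-- bounded multiplicity: the integrals over the sets `Z d` sum to at most `m` times the integral -/
theorem k2s_tsum_lint_le {α : Type*} [MeasurableSpace α] (μ : Measure α) {D : Type*} [Countable D] (Z : D → Set α) (hZ : ∀ d, MeasurableSet (Z d)) (m : ℕ)
    (hm : ∀ o, ∃ L : Finset D, L.card ≤ m ∧ ∀ d, o ∈ Z d → d ∈ L) (F : α → ℝ≥0∞) (hF : Measurable F) :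
    ∑' d, ∫⁻ o in Z d, F o ∂μ ≤ m * ∫⁻ o, F o ∂μ := by
  have h1 : ∀ d, ∫⁻ o in Z d, F o ∂μ = ∫⁻ o, (Z d).indicator F o ∂μ := fun d => (lintegral_indicator (hZ d) F).symm
  simp_rw [h1]
  rw [← lintegral_tsum fun d => (hF.indicator (hZ d)).aemeasurable, ← lintegral_const_mul _ hF]
  refine lintegral_mono fun o => ?_
  obtain ⟨L, hL, hmem⟩ := hm o
  rw [tsum_eq_sum (s := L) fun d hd => Set.indicator_of_notMem (fun h => hd (hmem d h)) F]
  calc ∑ d ∈ L, (Z d).indicator F o ≤ ∑ _d ∈ L, F o := Finset.sum_le_sum fun d _ => Set.indicator_le_self _ _ _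
    _ = L.card * F o := by rw [Finset.sum_const, nsmul_eq_mul]
    _ ≤ m * F o := by gcongr

/-- **the volume calculation** (02 l.527-536, 546-553).   For every label `d` a measurable set `Z d ⊆ U` of bases; every base lies in `Z d` for at most `m` labels.
Then the incidences whose observation lies in `Z` and has density `≤ hi` weigh at most `m hi |U|`.
PLAN: the set is `⊆ ⋃ d, bs ⁻¹' (Z d ∩ {den d ≤ hi}) ∩ {ℓ = d}`; `measure_iUnion_le`, `k2s_part_apply`, `k2s_part_lint`:  `≤ ∑' d, ∫⁻ o in Z d ∩ {den d ≤ hi}, den d ≤ hi ∑' d, volume (Z d) = hi ∫⁻ o, ∑' d, 1_{Z d} o ≤ hi m |U|`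
(`lintegral_tsum`; `∑' d, indicator (Z d) 1 o ≤ m 1_U o` through the finite list `L`). -/
theorem k2s_cap_count (hP : P.WF) {D : Type} [Countable D] (ℓ : P.Lab D) (γ : P.W) (hi : ℝ≥0∞) (m : ℕ)
    (Z : D → Set (ℝ × KbB v)) (hZ : ∀ d, MeasurableSet (Z d)) (U : Set (ℝ × KbB v)) (hU : MeasurableSet U) (hZU : ∀ d, Z d ⊆ U)
    (hm : ∀ o, ∃ L : Finset D, L.card ≤ m ∧ ∀ d, o ∈ Z d → d ∈ L) :
    P.mu γ {x | P.dn ℓ γ x ≤ hi ∧ P.bs γ x ∈ Z (ℓ γ x)} ≤ m * hi * volume U := by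
  have hW : ∀ d, MeasurableSet (Z d ∩ {o | P.den ℓ γ d o ≤ hi}) := fun d => (hZ d).inter (measurableSet_le (k2s_den_meas P ℓ γ d) measurable_const)
  have hsub : {x | P.dn ℓ γ x ≤ hi ∧ P.bs γ x ∈ Z (ℓ γ x)} ⊆ ⋃ d, (P.bs γ ⁻¹' (Z d ∩ {o | P.den ℓ γ d o ≤ hi}) ∩ ℓ γ ⁻¹' {d}) := by
    intro x hx
    exact Set.mem_iUnion.2 ⟨ℓ γ x, ⟨hx.2, hx.1⟩, rfl⟩
  have h2 : ∀ d, P.mu γ (P.bs γ ⁻¹' (Z d ∩ {o | P.den ℓ γ d o ≤ hi}) ∩ ℓ γ ⁻¹' {d}) ≤ hi * ∫⁻ o in Z d, U.indicator 1 o := by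
    intro d
    rw [← k2s_part_apply P hP ℓ γ d (hW d), k2s_part_lint P hP ℓ γ d (hW d)]
    calc ∫⁻ o in Z d ∩ {o | P.den ℓ γ d o ≤ hi}, P.den ℓ γ d o ≤ ∫⁻ _o in Z d ∩ {o | P.den ℓ γ d o ≤ hi}, hi :=
          setLIntegral_mono measurable_const fun o ho => ho.2
      _ = hi * volume (Z d ∩ {o | P.den ℓ γ d o ≤ hi}) := setLIntegral_const _ _
      _ ≤ hi * volume (Z d) := by gcongr; exact Set.inter_subset_left
      _ = hi * ∫⁻ o in Z d, U.indicator 1 o := by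
        congr 1
        rw [← setLIntegral_one]
        exact setLIntegral_congr_fun (hZ d) fun o ho => by
          rw [Set.indicator_of_mem (hZU d ho)]
          rfl
  calc P.mu γ {x | P.dn ℓ γ x ≤ hi ∧ P.bs γ x ∈ Z (ℓ γ x)}
      ≤ ∑' d, P.mu γ (P.bs γ ⁻¹' (Z d ∩ {o | P.den ℓ γ d o ≤ hi}) ∩ ℓ γ ⁻¹' {d}) := (measure_mono hsub).trans (measure_iUnion_le _)
    _ ≤ ∑' d, hi * ∫⁻ o in Z d, U.indicator 1 o := ENNReal.tsum_le_tsum h2
    _ = hi * ∑' d, ∫⁻ o in Z d, U.indicator 1 o := ENNReal.tsum_mul_left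
    _ ≤ hi * (m * ∫⁻ o, U.indicator 1 o) := by
        gcongr
        exact k2s_tsum_lint_le volume Z hZ m hm _ (measurable_one.indicator hU)
    _ = m * hi * volume U := by
        rw [lintegral_indicator_one hU]
        ring

/-- **summing a conditional ceiling over a list** (02 l.640-648).   `ℓ'` refines the observation `ℓ`; for every `(d, e)` a measurable set `Z d e` of bases; at every base and every `d` at most `m` values `e` are allowed.
The incidences with allowed refinement at which (joint density) `≤ κ` (pure density) weigh at most `m κ μ(all)`.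
PLAN: as before, `≤ ∑' (d,e), ∫⁻ o in Z d e ∩ {den (d,e) ≤ κ den d}, den (d,e) ≤ κ ∑' d, ∫⁻ o, (∑' e, 1_{Z d e} o) den d o ≤ κ m ∑' d, part d univ ≤ κ m μ univ`
(the events `{ℓ = d}` are disjoint and measurable: `measure_iUnion`, or `tsum_measure_le_measure_univ`). -/
theorem k2s_cond_count (hP : P.WF) {D D' : Type} [Countable D] [Countable D'] (ℓ : P.Lab D) (ℓ' : P.Lab D') (hℓ : P.LabMeas ℓ) (γ : P.W) (κ : ℝ≥0∞) (m : ℕ)
    (Z : D → D' → Set (ℝ × KbB v)) (hZ : ∀ d e, MeasurableSet (Z d e))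
    (hm : ∀ d o, ∃ L : Finset D', L.card ≤ m ∧ ∀ e, o ∈ Z d e → e ∈ L) :
    P.mu γ {x | P.dn (P.lpair ℓ ℓ') γ x ≤ κ * P.dn ℓ γ x ∧ P.bs γ x ∈ Z (ℓ γ x) (ℓ' γ x)} ≤ m * κ * P.mu γ Set.univ := by
  have hW : ∀ p : D × D', MeasurableSet (Z p.1 p.2 ∩ {o | P.den (P.lpair ℓ ℓ') γ p o ≤ κ * P.den ℓ γ p.1 o}) := fun p =>
    (hZ p.1 p.2).inter (measurableSet_le (k2s_den_meas P _ γ p) ((k2s_den_meas P ℓ γ p.1).const_mul κ))
  have hsub : {x | P.dn (P.lpair ℓ ℓ') γ x ≤ κ * P.dn ℓ γ x ∧ P.bs γ x ∈ Z (ℓ γ x) (ℓ' γ x)} ⊆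
      ⋃ p : D × D', (P.bs γ ⁻¹' (Z p.1 p.2 ∩ {o | P.den (P.lpair ℓ ℓ') γ p o ≤ κ * P.den ℓ γ p.1 o}) ∩ P.lpair ℓ ℓ' γ ⁻¹' {p}) := by
    intro x hx
    exact Set.mem_iUnion.2 ⟨(ℓ γ x, ℓ' γ x), ⟨hx.2, hx.1⟩, rfl⟩
  have h2 : ∀ p : D × D', P.mu γ (P.bs γ ⁻¹' (Z p.1 p.2 ∩ {o | P.den (P.lpair ℓ ℓ') γ p o ≤ κ * P.den ℓ γ p.1 o}) ∩ P.lpair ℓ ℓ' γ ⁻¹' {p})
      ≤ ∫⁻ o in Z p.1 p.2, κ * P.den ℓ γ p.1 o := by
    intro p
    rw [← k2s_part_apply P hP _ γ p (hW p), k2s_part_lint P hP _ γ p (hW p)]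
    calc ∫⁻ o in Z p.1 p.2 ∩ {o | P.den (P.lpair ℓ ℓ') γ p o ≤ κ * P.den ℓ γ p.1 o}, P.den (P.lpair ℓ ℓ') γ p o
        ≤ ∫⁻ o in Z p.1 p.2 ∩ {o | P.den (P.lpair ℓ ℓ') γ p o ≤ κ * P.den ℓ γ p.1 o}, κ * P.den ℓ γ p.1 o :=
          setLIntegral_mono ((k2s_den_meas P ℓ γ p.1).const_mul κ) fun o ho => ho.2
      _ ≤ ∫⁻ o in Z p.1 p.2, κ * P.den ℓ γ p.1 o := lintegral_mono_set Set.inter_subset_left
  have h3 : ∀ d, ∑' e, ∫⁻ o in Z d e, κ * P.den ℓ γ d o ≤ m * κ * P.mu γ (ℓ γ ⁻¹' {d}) := by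
    intro d
    refine (k2s_tsum_lint_le volume (Z d) (hZ d) m (hm d) _ ((k2s_den_meas P ℓ γ d).const_mul κ)).trans ?_
    rw [lintegral_const_mul _ (k2s_den_meas P ℓ γ d), ← setLIntegral_univ, ← k2s_part_lint P hP ℓ γ d MeasurableSet.univ,
      k2s_part_apply P hP ℓ γ d MeasurableSet.univ, Set.preimage_univ, Set.univ_inter, mul_assoc]
  have h4 : ∑' d, P.mu γ (ℓ γ ⁻¹' {d}) ≤ P.mu γ Set.univ := by
    refine tsum_measure_le_measure_univ (fun d => (hℓ γ d).nullMeasurableSet) ?_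
    intro d d' hdd
    exact (Set.disjoint_left.2 fun x hx hx' => hdd (by
      have a1 : ℓ γ x = d := hx
      have a2 : ℓ γ x = d' := hx'
      rw [← a1, ← a2])).aedisjoint
  calc P.mu γ {x | P.dn (P.lpair ℓ ℓ') γ x ≤ κ * P.dn ℓ γ x ∧ P.bs γ x ∈ Z (ℓ γ x) (ℓ' γ x)}
      ≤ ∑' p : D × D', P.mu γ (P.bs γ ⁻¹' (Z p.1 p.2 ∩ {o | P.den (P.lpair ℓ ℓ') γ p o ≤ κ * P.den ℓ γ p.1 o}) ∩ P.lpair ℓ ℓ' γ ⁻¹' {p}) :=
        (measure_mono hsub).trans (measure_iUnion_le _)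
    _ ≤ ∑' p : D × D', ∫⁻ o in Z p.1 p.2, κ * P.den ℓ γ p.1 o := ENNReal.tsum_le_tsum h2
    _ = ∑' d, ∑' e, ∫⁻ o in Z d e, κ * P.den ℓ γ d o := ENNReal.tsum_prod (f := fun d e => ∫⁻ o in Z d e, κ * P.den ℓ γ d o)
    _ ≤ ∑' d, m * κ * P.mu γ (ℓ γ ⁻¹' {d}) := ENNReal.tsum_le_tsum h3
    _ = m * κ * ∑' d, P.mu γ (ℓ γ ⁻¹' {d}) := ENNReal.tsum_mul_left
    _ ≤ m * κ * P.mu γ Set.univ := by gcongr

end meas

/-! ## 5. Dyadic rounding and bins  (L-252-K2S-A5) -/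

theorem k2s_dy_pos (x : ℝ) : 0 < kbDy x := by
  unfold kbDy
  exact zpow_pos (by norm_num) _

theorem k2s_dy_ge {x : ℝ} (hx : 0 < x) : x ≤ kbDy x := by
  unfold kbDy
  rw [← Real.rpow_intCast]
  calc x = (2 : ℝ) ^ Real.logb 2 x := (Real.rpow_logb (by norm_num) (by norm_num) hx).symm
    _ ≤ (2 : ℝ) ^ ((⌈Real.logb 2 x⌉ : ℤ) : ℝ) := Real.rpow_le_rpow_of_exponent_le (by norm_num) (Int.le_ceil _)

theorem k2s_dy_lt {x : ℝ} (hx : 0 < x) : kbDy x < 2 * x := by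
  unfold kbDy
  rw [← Real.rpow_intCast]
  calc (2 : ℝ) ^ ((⌈Real.logb 2 x⌉ : ℤ) : ℝ) < (2 : ℝ) ^ (Real.logb 2 x + 1) :=
        Real.rpow_lt_rpow_of_exponent_lt (by norm_num) (Int.ceil_lt_add_one _)
    _ = 2 * x := by
        rw [Real.rpow_add (by norm_num), Real.rpow_logb (by norm_num) (by norm_num) hx, Real.rpow_one, mul_comm]

/-- the bin of `x` is `d` iff `x` lies in the half-open cell -/
theorem k2s_bin_iff (wd x : ℝ) (d : ℤ) : kbBin wd x = d ↔ (d : ℝ) * kbDy wd ≤ x ∧ x < ((d : ℝ) + 1) * kbDy wd := by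
  unfold kbBin
  rw [Int.floor_eq_iff, le_div_iff₀ (k2s_dy_pos wd), div_lt_iff₀ (k2s_dy_pos wd)]

theorem k2s_bin_meas (wd : ℝ) : Measurable (kbBin wd) := by
  unfold kbBin
  exact (measurable_id.div_const _).floor

/-- an interval of radius `ρ` meets at most `2 ρ / wd + 2` bins of requested width `wd` -/
theorem k2s_bin_ball {wd ρ : ℝ} (hwd : 0 < wd) (hρ : 0 ≤ ρ) (x₀ : ℝ) : ∃ S : Finset ℤ, (S.card : ℝ) ≤ 2 * ρ / wd + 2 ∧ ∀ x : ℝ, |x - x₀| ≤ ρ → kbBin wd x ∈ S := by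
  obtain ⟨S, h1, h2⟩ := rmz_quad_bin_one (x₀ - ρ) (2 * ρ) (kbDy wd) 0 (by positivity) (k2s_dy_pos wd)
  refine ⟨S, h1.trans ?_, fun x hx => ?_⟩
  · have : 2 * ρ / kbDy wd ≤ 2 * ρ / wd := div_le_div_of_nonneg_left (by positivity) hwd (k2s_dy_ge hwd)
    linarith
  · rw [abs_le] at hx
    have := h2 x ⟨by linarith [hx.1], by linarith [hx.2]⟩
    rw [sub_zero] at this
    exact this

/-- a sup-norm ball of radius `ρ` in `ℝ^m` meets at most `(2 ρ / wd + 2)^m` bins.   PLAN: `Fintype.piFinset` of the lists of `k2s_bin_ball`, `Fintype.card_piFinset`, `Finset.prod_le_pow_card`-type bound. -/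
theorem k2s_bin_ball_pi {m : ℕ} {wd ρ : ℝ} (hwd : 0 < wd) (hρ : 0 ≤ ρ) (x₀ : Fin m → ℝ) : ∃ S : Finset (Fin m → ℤ), (S.card : ℝ) ≤ (2 * ρ / wd + 2) ^ m ∧
    ∀ x : Fin m → ℝ, ‖x - x₀‖ ≤ ρ → (fun i => kbBin wd (x i)) ∈ S := by
  choose S h1 h2 using fun i : Fin m => k2s_bin_ball hwd hρ (x₀ i)
  refine ⟨Fintype.piFinset S, ?_, fun x hx => ?_⟩
  · rw [Fintype.card_piFinset]
    push_cast
    calc ∏ i, ((S i).card : ℝ) ≤ ∏ _i : Fin m, (2 * ρ / wd + 2) := Finset.prod_le_prod (fun i _ => Nat.cast_nonneg _) fun i _ => h1 i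
      _ = (2 * ρ / wd + 2) ^ m := by rw [Finset.prod_const, Finset.card_univ, Fintype.card_fin]
  · rw [Fintype.mem_piFinset]
    intro i
    refine h2 i (x i) ?_
    have := norm_le_pi_norm (x - x₀) i
    rw [Pi.sub_apply, Real.norm_eq_abs] at this
    exact this.trans hx

/-- the dyadic grids are nested: the fine bin determines the coarse bin.   PLAN: `kbDy wd = 2^z`, `kbDy wd' = 2^z'`, `z' ≤ z` (`Int.ceil_mono`, `Real.logb_le_logb_of_le`); `φ e = ⌊(e : ℝ) / 2^(z - z')⌋` ; `⌊x / 2^z⌋ = ⌊⌊x / 2^z'⌋ / 2^(z-z')⌋` (`Int.floor_div_natCast`-type lemma, `2^(z-z')` is a natural number). -/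
theorem k2s_bin_nested {wd wd' : ℝ} (h0 : 0 < wd') (h : wd' ≤ wd) : ∃ φ : ℤ → ℤ, ∀ x, kbBin wd x = φ (kbBin wd' x) := by
  have hz : ⌈Real.logb 2 wd'⌉ ≤ ⌈Real.logb 2 wd⌉ := Int.ceil_mono (Real.logb_le_logb_of_le (by norm_num) h0 h)
  obtain ⟨k, hk⟩ := Int.eq_ofNat_of_zero_le (sub_nonneg.2 hz)
  refine ⟨fun e => e / ((2 ^ k : ℕ) : ℤ), fun x => ?_⟩
  unfold kbBin kbDy
  have e1 : (2 : ℝ) ^ (⌈Real.logb 2 wd⌉ : ℤ) = (2 : ℝ) ^ (⌈Real.logb 2 wd'⌉ : ℤ) * ((2 ^ k : ℕ) : ℝ) := by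
    have : ⌈Real.logb 2 wd⌉ = ⌈Real.logb 2 wd'⌉ + (k : ℤ) := by omega
    rw [this, zpow_add₀ (by norm_num), zpow_natCast]
    push_cast
    rfl
  rw [e1, ← div_div, Int.floor_div_natCast]

/-! ## 6. Monotonicity in the slack  (L-252-K2S-A6) -/

section sys

variable {P : KbPb v} (Y : KbSys P)

theorem k2s_q_pos : 0 < Y.q := by
  unfold KbSys.q kbQ
  positivity

theorem k2s_q_le_one : Y.q ≤ 1 := by
  unfold KbSys.q kbQ
  exact pow_le_one₀ (by norm_num) (by norm_num)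

theorem k2s_geo_mono (hP : P.WF) {K K' a : ℝ} (h : Y.Geo K a) (hK : K ≤ K') (ha : 0 ≤ a) : Y.Geo K' a := by
  have hq := (k2s_q_pos Y).le
  refine ⟨fun c => ?_, fun c l hl t ht => ?_, fun c l hl t ht => ?_, fun c l hl t ht => ?_, fun c x hx => ?_,
    fun c t y w => ?_⟩
  · exact (h.size c).trans (mul_le_mul_of_nonneg_left hK hq)
  · exact (h.box c l hl t ht).trans hK
  · exact (h.val c l hl t ht).trans (mul_le_mul_of_nonneg_right hK ha)
  · exact (h.dw c l hl t ht).trans (mul_le_mul_of_nonneg_right hK (hP.B_pos _).le)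
  · exact (h.dw_low c x hx).trans (mul_le_mul_of_nonneg_right hK (abs_nonneg _))
  · exact (h.dww c t y w).trans (mul_le_mul_of_nonneg_right hK (by positivity))

theorem k2s_big_mono {K K' : ℝ} (h : Y.Big K) (hK : K ≤ K') : Y.Big K' := by
  unfold KbSys.Big at h ⊢
  exact h.trans (mul_le_mul' (ENNReal.ofReal_le_ofReal hK) le_rfl)

theorem k2s_tru_mono {K K' n : ℝ} (h : Y.Tru K n) (hK : K ≤ K') : Y.Tru K' n := by
  intro c
  exact (h c).trans (mul_le_mul' (ENNReal.ofReal_le_ofReal hK) le_rfl)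

theorem k2s_sat_mono {K K' n : ℝ} (h : Y.Sat K n) (hK : K ≤ K') (hn : 0 ≤ n) : Y.Sat K' n := by
  intro c
  obtain ⟨h1, h2, h3⟩ := h c
  refine ⟨h1.trans (mul_le_mul' (ENNReal.ofReal_le_ofReal hK) le_rfl), h2.trans (ENNReal.ofReal_le_ofReal ?_),
    h3.trans (mul_le_mul' (ENNReal.ofReal_le_ofReal hK) le_rfl)⟩
  have hJ : 0 ≤ (Y.ch c).J := abs_nonneg _
  exact mul_le_mul_of_nonneg_right (mul_le_mul_of_nonneg_right hK hn) hJ

theorem k2s_known_mono {D : Type} {ℓ : P.Lab D} {K K' : ℝ} (h : Y.Known ℓ K) (hK : K ≤ K') : Y.Known ℓ K' := by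
  obtain ⟨Lst, h1, h2, h3⟩ := h
  exact ⟨Lst, fun γ d o => (h1 γ d o).trans hK, h2, h3⟩

theorem k2s_tmp_mono {Q Q' : ℝ} (h : Y.Tmp Q) (hQ : Q ≤ Q') : Y.Tmp Q' := by
  refine ⟨h.card.trans hQ, h.q_low.trans (mul_le_mul_of_nonneg_right hQ (k2s_q_pos Y).le), fun c => ?_,
    fun c => (h.cen c).trans hQ⟩
  have hJ : 0 ≤ (Y.ch c).J := abs_nonneg _
  exact (h.J_low c).trans (mul_le_mul_of_nonneg_right hQ hJ)

/-- saturated systems are true -/
theorem k2s_sat_tru {K n : ℝ} (hK : 0 ≤ K) (h : Y.Sat K n) : Y.Tru (K ^ 2) n := by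
  intro c
  obtain ⟨h1, -, h3⟩ := h c
  rw [ENNReal.ofReal_mul' (k2s_q_pos Y).le, pow_two, ENNReal.ofReal_mul hK]
  calc ENNReal.ofReal (n * (Y.ch c).J) * ENNReal.ofReal Y.q
      ≤ ENNReal.ofReal K * Y.nuC c * ENNReal.ofReal Y.q := mul_le_mul' h3 le_rfl
    _ = ENNReal.ofReal K * (ENNReal.ofReal Y.q * Y.nuC c) := by ring
    _ ≤ ENNReal.ofReal K * (ENNReal.ofReal K * Y.mC c) := mul_le_mul' le_rfl h1
    _ = ENNReal.ofReal K * ENNReal.ofReal K * Y.mC c := by ring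

/-! ## 7. Restriction of a system  (L-252-K2S-A7) -/

variable (keep : Set Y.C) (S' : Y.C → Set (P.Lam × ℝ))

theorem k2s_restr_wf (hY : Y.WF) (hS : ∀ c, MeasurableSet (S' c)) : (Y.restr keep S').WF := by
  refine ⟨fun c => hY.iv_lt c.1, fun c => hY.A_meas c.1, fun c => hY.A_sub c.1, fun c c' hc hw hi => ?_,
    fun c => (hY.S_meas c.1).inter (hS c.1), fun c => ?_, fun c => hY.inv c.1, fun c => hY.adm c.1⟩
  · exact hY.A_disj c.1 c'.1 (fun h => hc (Subtype.ext h)) hw hi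
  · exact Set.inter_subset_left.trans (hY.S_sub c.1)

theorem k2s_restr_geo {K a : ℝ} (h : Y.Geo K a) : (Y.restr keep S').Geo K a := by
  exact ⟨fun c => h.size c.1, fun c => h.box c.1, fun c => h.val c.1, fun c => h.dw c.1,
    fun c x hx => h.dw_low c.1 x hx.1, fun c => h.dww c.1⟩

theorem k2s_restr_tmp {Q : ℝ} (h : Y.Tmp Q) : (Y.restr keep S').Tmp Q := by
  refine ⟨?_, h.q_low, fun c => h.J_low c.1, fun c => h.cen c.1⟩
  have h1 : Fintype.card (Y.restr keep S').C ≤ Fintype.card Y.C :=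
    Fintype.card_le_of_injective (fun c : (Y.restr keep S').C => (c : keep).1) fun c c' hc => Subtype.ext hc
  exact le_trans (by exact_mod_cast h1) h.card

theorem k2s_restr_q : (Y.restr keep S').q = Y.q := rfl

theorem k2s_restr_nuC (c : keep) : (Y.restr keep S').nuC c = Y.nuC c := rfl

theorem k2s_restr_mC (c : keep) : (Y.restr keep S').mC c = P.mu (Y.wd c) (Y.S c ∩ S' c) := rfl

open Classical in
/-- sums over the labels of a restricted system.   (The `Fintype` instance of `(Y.restr keep S').C` is `Fintype.ofFinite`: use `Finset.sum_subtype` / `Fintype.sum_equiv` and `Subsingleton.elim` on the instances.) -/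
theorem k2s_restr_sum (F : Y.C → ℝ≥0∞) : ∑ c : (Y.restr keep S').C, F (c : keep).1 = ∑ c, if c ∈ keep then F c else 0 := by
  rw [← Finset.sum_filter]
  exact (Finset.sum_subtype (Finset.univ.filter fun c => c ∈ keep) (p := fun c => c ∈ keep)
    (fun x => by simp) F).symm

open Classical in
theorem k2s_restr_mass : (Y.restr keep S').mass = ∑ c, if c ∈ keep then P.om (Y.wd c) * P.mu (Y.wd c) (Y.S c ∩ S' c) else 0 :=
  k2s_restr_sum Y keep S' fun c => P.om (Y.wd c) * P.mu (Y.wd c) (Y.S c ∩ S' c)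

/-- list knowledge passes to restrictions -/
theorem k2s_restr_known {D : Type} {ℓ : P.Lab D} {K : ℝ} (h : Y.Known ℓ K) : (Y.restr keep S').Known ℓ K := by
  classical
  obtain ⟨Lst, h1, h2, h3⟩ := h
  have e1 : ∀ γ d o, (((Lst γ d o).subtype (fun c => c ∈ keep)).card : ℝ) ≤ K := by
    intro γ d o
    refine le_trans ?_ (h1 γ d o)
    rw [Finset.card_subtype]
    exact_mod_cast Finset.card_filter_le _ _
  have e2 : ∀ γ d (c : {c // c ∈ keep}), MeasurableSet {o | c ∈ (Lst γ d o).subtype (fun c => c ∈ keep)} := by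
    intro γ d c
    simp only [Finset.mem_subtype]
    exact h2 γ d c.1
  have e3 : ∀ (c : {c // c ∈ keep}), ∀ x ∈ Y.S c.1,
      c ∈ (Lst (Y.wd c.1) (ℓ (Y.wd c.1) x) (P.bs (Y.wd c.1) x)).subtype (fun c => c ∈ keep) := by
    intro c x hx
    rw [Finset.mem_subtype]
    exact h3 c.1 x hx
  exact ⟨fun γ d o => (Lst γ d o).subtype (fun c => c ∈ keep), e1, e2, fun c x hx => e3 c x hx.1⟩

/-- a label which determines `ℓ` knows what `ℓ` knows -/
theorem k2s_known_factor {D D' : Type} {ℓ : P.Lab D} {ℓ' : P.Lab D'} (φ : P.W → D' → D) (hφ : ∀ γ x, ℓ γ x = φ γ (ℓ' γ x)) {K : ℝ} (h : Y.Known ℓ K) : Y.Known ℓ' K := by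
  obtain ⟨Lst, h1, h2, h3⟩ := h
  refine ⟨fun γ d o => Lst γ (φ γ d) o, fun γ d o => h1 γ _ o, fun γ d c => h2 γ _ c, fun c x hx => ?_⟩
  have := h3 c x hx
  rw [hφ] at this
  exact this

/-- known by `p_r` implies known by `p_s` for `s ≥ r` -/
theorem k2s_known_refine (hP : P.WF) {a a' K : ℝ} (h0 : 0 < a') (ha : a' ≤ a) (h : Y.Known (P.hid a) K) : Y.Known (P.hid a') K := by
  have h1 : ∀ γ : P.W, ∃ φ : ℤ → ℤ, ∀ x, kbBin (a / P.B γ) x = φ (kbBin (a' / P.B γ) x) := fun γ =>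
    k2s_bin_nested (div_pos h0 (hP.B_pos γ)) (div_le_div_of_nonneg_right ha (hP.B_pos γ).le)
  choose φ hφ using h1
  exact k2s_known_factor Y φ (fun γ x => hφ γ _) h

/-- deleting labels only: the packets are unchanged -/
theorem k2s_restr_univ_mC (c : keep) : (Y.restr keep fun _ => Set.univ).mC c = Y.mC c := by
  rw [k2s_restr_mC, Set.inter_univ]
  rfl

theorem k2s_restr_univ_tru {K n : ℝ} (h : Y.Tru K n) : (Y.restr keep fun _ => Set.univ).Tru K n := by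
  intro c
  have e : (Y.restr keep fun _ => Set.univ).mC c = Y.mC (c : keep).1 := k2s_restr_univ_mC Y keep c
  rw [e]
  exact h (c : keep).1

theorem k2s_restr_univ_sat {K n : ℝ} (h : Y.Sat K n) : (Y.restr keep fun _ => Set.univ).Sat K n := by
  intro c
  have e : (Y.restr keep fun _ => Set.univ).mC c = Y.mC (c : keep).1 := k2s_restr_univ_mC Y keep c
  rw [e]
  exact h (c : keep).1

/-! ## 8. The assignment budget (2.12)  (L-252-K2S-A8) -/

/-- `|I_c| = q` -/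
theorem k2s_vol_I (c : Y.C) : volume (Y.I c) = ENNReal.ofReal Y.q := by
  unfold KbSys.I kbI KbSys.q
  rw [Real.volume_Ico]
  congr 1
  ring

theorem k2s_I_sub (hY : Y.WF) (c : Y.C) : Y.I c ⊆ Set.Icc 0 1 := by
  intro t ht
  have hq : 0 < kbQ Y.n := by unfold kbQ; positivity
  have h2 : (2 : ℝ) ^ Y.n * kbQ Y.n = 1 := by unfold kbQ; rw [← mul_pow]; norm_num
  have hi : ((Y.iv c : ℝ) + 1) ≤ 2 ^ Y.n := by exact_mod_cast hY.iv_lt c
  constructor
  · exact le_trans (by positivity) ht.1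
  · exact ht.2.le.trans ((mul_le_mul_of_nonneg_right hi hq.le).trans h2.le)

/-- `m_c ≤ q ν_c` -/
theorem k2s_mC_le (hP : P.WF) (hY : Y.WF) (c : Y.C) : Y.mC c ≤ ENNReal.ofReal Y.q * Y.nuC c := by
  unfold KbSys.mC KbSys.nuC
  calc P.mu (Y.wd c) (Y.S c) ≤ P.mu (Y.wd c) (Y.A c ×ˢ Y.I c) := measure_mono fun x hx => (hY.S_sub c hx).2
    _ ≤ P.nu (Y.wd c) (Y.A c) * volume (Y.I c) := k2s_mu_rect P hP _ _ _
    _ = ENNReal.ofReal Y.q * P.nu (Y.wd c) (Y.A c) := by rw [k2s_vol_I, mul_comm]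

theorem k2s_nuC_le (hP : P.WF) (c : Y.C) : Y.nuC c ≤ 1 := by
  have := hP.prob (Y.wd c)
  exact prob_le_one

/-- `∑ ω q ν_c ≤ 1`.   PLAN: group the labels by `(wd c, iv c)`; in one group the `A c` are disjoint measurable: `∑ ν_c ≤ 1`; there are `2^n` intervals, `2^n q = 1`; `∑ ω = 1`. -/
theorem k2s_Z_le (hP : P.WF) (hY : Y.WF) : Y.Z ≤ 1 := by
  classical
  unfold KbSys.Z
  have hmaps : ∀ c ∈ (Finset.univ : Finset Y.C), (Y.wd c, Y.iv c) ∈ (Finset.univ : Finset P.W) ×ˢ Finset.range (2 ^ Y.n) := fun c _ =>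
    Finset.mem_product.2 ⟨Finset.mem_univ _, Finset.mem_range.2 (hY.iv_lt c)⟩
  rw [← Finset.sum_fiberwise_of_maps_to hmaps]
  have hgrp : ∀ y ∈ (Finset.univ : Finset P.W) ×ˢ Finset.range (2 ^ Y.n),
      ∑ c ∈ Finset.univ.filter (fun c => (Y.wd c, Y.iv c) = y), P.om (Y.wd c) * ENNReal.ofReal Y.q * Y.nuC c ≤ P.om y.1 * ENNReal.ofReal Y.q := by
    rintro ⟨γ, i⟩ -
    have := hP.prob γ
    have e1 : ∑ c ∈ Finset.univ.filter (fun c => (Y.wd c, Y.iv c) = (γ, i)), P.om (Y.wd c) * ENNReal.ofReal Y.q * Y.nuC c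
        = ∑ c ∈ Finset.univ.filter (fun c => (Y.wd c, Y.iv c) = (γ, i)), P.om γ * ENNReal.ofReal Y.q * P.nu γ (Y.A c) := by
      refine Finset.sum_congr rfl fun c hc => ?_
      have hc' : Y.wd c = γ := (Prod.ext_iff.1 (Finset.mem_filter.1 hc).2).1
      unfold KbSys.nuC
      rw [hc']
    rw [e1, ← Finset.mul_sum, ← measure_biUnion_finset _ (fun c _ => hY.A_meas c)]
    · calc P.om γ * ENNReal.ofReal Y.q * _ ≤ P.om γ * ENNReal.ofReal Y.q * 1 := by gcongr; exact prob_le_one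
        _ = _ := mul_one _
    · intro c hc c' hc' hne
      have h1 := Prod.ext_iff.1 (Finset.mem_filter.1 (Finset.mem_coe.1 hc)).2
      have h2 := Prod.ext_iff.1 (Finset.mem_filter.1 (Finset.mem_coe.1 hc')).2
      exact hY.A_disj c c' hne (h1.1.trans h2.1.symm) (h1.2.trans h2.2.symm)
  refine (Finset.sum_le_sum hgrp).trans ?_
  rw [Finset.sum_product]
  simp only [Finset.sum_const, Finset.card_range, nsmul_eq_mul]
  have hq : ((2 ^ Y.n : ℕ) : ℝ≥0∞) * ENNReal.ofReal Y.q = 1 := by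
    have h2 : (2 : ℝ) ^ Y.n * kbQ Y.n = 1 := by unfold kbQ; rw [← mul_pow]; norm_num
    have e : ((2 ^ Y.n : ℕ) : ℝ≥0∞) = ENNReal.ofReal ((2 : ℝ) ^ Y.n) := by
      rw [← ENNReal.ofReal_natCast]; push_cast; rfl
    rw [e, ← ENNReal.ofReal_mul (by positivity)]
    unfold KbSys.q
    rw [h2, ENNReal.ofReal_one]
  have e2 : ∀ γ : P.W, ((2 ^ Y.n : ℕ) : ℝ≥0∞) * (P.om γ * ENNReal.ofReal Y.q) = P.om γ := fun γ => by
    rw [mul_left_comm, hq, mul_one]
  simp only [e2]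
  exact hP.om_sum.le

theorem k2s_kbI_disj (n : ℕ) {i i' : ℕ} (h : i ≠ i') : Disjoint (kbI n i) (kbI n i') := by
  have hq : 0 < kbQ n := by unfold kbQ; positivity
  have key : ∀ a b : ℕ, a < b → Disjoint (kbI n a) (kbI n b) := by
    intro a b hab
    rw [Set.disjoint_left]
    intro t ht ht'
    have h1 : ((a : ℝ) + 1) ≤ b := by exact_mod_cast hab
    have h2 := mul_le_mul_of_nonneg_right h1 hq.le
    exact absurd (lt_of_lt_of_le ht.2 (h2.trans ht'.1)) (lt_irrefl _)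
  rcases lt_or_gt_of_ne h with h | h
  · exact key _ _ h
  · exact (key _ _ h).symm

/-- the selections of two different labels of one world are disjoint -/
theorem k2s_S_disj (hY : Y.WF) {c c' : Y.C} (hc : c ≠ c') (hw : Y.wd c = Y.wd c') : Disjoint (Y.S c) (Y.S c') := by
  rw [Set.disjoint_left]
  intro x hx hx'
  have h1 := (hY.S_sub c hx).2
  have h2 := (hY.S_sub c' hx').2
  by_cases hi : Y.iv c = Y.iv c'
  · exact Set.disjoint_left.1 (hY.A_disj c c' hc hw hi) h1.1 h2.1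
  · exact Set.disjoint_left.1 (k2s_kbI_disj Y.n hi) h1.2 h2.2

/-- the parts of the selections inside a family of sets weigh at most the family -/
theorem k2s_sum_le_mass (hP : P.WF) (hY : Y.WF) (G : P.W → Set (P.Lam × ℝ)) (s : Finset Y.C) :
    ∑ c ∈ s, P.om (Y.wd c) * P.mu (Y.wd c) (Y.S c ∩ G (Y.wd c)) ≤ P.mass G := by
  classical
  unfold KbPb.mass
  rw [← Finset.sum_fiberwise_of_maps_to (g := Y.wd) (t := Finset.univ) (fun c _ => Finset.mem_univ _)]
  refine Finset.sum_le_sum fun γ _ => ?_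
  have e1 : ∑ c ∈ s.filter (fun c => Y.wd c = γ), P.om (Y.wd c) * P.mu (Y.wd c) (Y.S c ∩ G (Y.wd c))
      = ∑ c ∈ s.filter (fun c => Y.wd c = γ), P.om γ * (P.mu γ).restrict (G γ) (Y.S c) := by
    refine Finset.sum_congr rfl fun c hc => ?_
    rw [(Finset.mem_filter.1 hc).2, Measure.restrict_apply (hY.S_meas c)]
  rw [e1, ← Finset.mul_sum, ← measure_biUnion_finset _ (fun c _ => hY.S_meas c)]
  · refine mul_le_mul' le_rfl ?_
    calc _ ≤ (P.mu γ).restrict (G γ) Set.univ := measure_mono (Set.subset_univ _)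
      _ = P.mu γ (G γ) := Measure.restrict_apply_univ _
  · intro c hc c' hc' hne
    exact k2s_S_disj Y hY hne ((Finset.mem_filter.1 (Finset.mem_coe.1 hc)).2.trans (Finset.mem_filter.1 (Finset.mem_coe.1 hc')).2.symm)

theorem k2s_mass_le_one (hP : P.WF) (hY : Y.WF) : Y.mass ≤ 1 := by
  have h := k2s_sum_le_mass Y hP hY (fun _ => Set.univ) Finset.univ
  simp only [Set.inter_univ] at h
  exact h.trans (k2s_tot_le P hP)

/-! ## 9. Geometry of one chart  (L-252-K2S-A9) -/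

/-- `Di` is a two-sided inverse -/
theorem k2s_inv' (hY : Y.WF) (c : Y.C) : (Y.ch c).Di * (Y.ch c).D = 1 := by
  exact mul_eq_one_comm.1 (hY.inv c)

theorem k2s_J_pos (hY : Y.WF) (c : Y.C) : 0 < (Y.ch c).J := by
  unfold KbChart.J
  rw [abs_pos]
  intro h0
  have := congrArg Matrix.det (hY.inv c)
  rw [Matrix.det_mul, h0, zero_mul, Matrix.det_one] at this
  exact zero_ne_one this

/-- `‖D z‖ ≤ |D| ‖z‖` for the entry-sum size -/
theorem k2s_mulVec_le {m : ℕ} (D : Matrix (Fin m) (Fin m) ℝ) (z : Fin m → ℝ) : ‖D.mulVec z‖ ≤ kbMn D * ‖z‖ := by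
  have hM : 0 ≤ kbMn D := Finset.sum_nonneg fun i _ => Finset.sum_nonneg fun k _ => abs_nonneg _
  rw [pi_norm_le_iff_of_nonneg (mul_nonneg hM (norm_nonneg z))]
  intro i
  rw [Real.norm_eq_abs]
  calc |D.mulVec z i| = |∑ k, D i k * z k| := rfl
    _ ≤ ∑ k, |D i k * z k| := Finset.abs_sum_le_sum_abs _ _
    _ ≤ ∑ k, |D i k| * ‖z‖ := Finset.sum_le_sum fun k _ => by
        rw [abs_mul]
        exact mul_le_mul_of_nonneg_left (norm_le_pi_norm z k) (abs_nonneg _)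
    _ = (∑ k, |D i k|) * ‖z‖ := (Finset.sum_mul _ _ _).symm
    _ ≤ kbMn D * ‖z‖ := by
        refine mul_le_mul_of_nonneg_right ?_ (norm_nonneg z)
        exact Finset.single_le_sum (f := fun i => ∑ k, |D i k|) (fun i _ => Finset.sum_nonneg fun k _ => abs_nonneg _) (Finset.mem_univ i)

/-- (02 l.452) `q D_c⁻¹ (V - y_c')` is bounded.   PLAN: the times `t_c`, `t_c + q/2` lie in `I_c`; subtract the two instances of `Geo.box`. -/
theorem k2s_vel_box {K a : ℝ} (h : Y.Geo K a) (c : Y.C) (l : P.Lam) (hl : l ∈ Y.A c) :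
    Y.q * ‖(Y.ch c).Di.mulVec (kbV (P.co (Y.wd c) l) - (Y.ch c).y1)‖ ≤ 4 * K := by
  have hq : 0 < Y.q := k2s_q_pos Y
  have hq' : Y.q = kbQ Y.n := rfl
  have ht1 : (Y.iv c : ℝ) * kbQ Y.n ∈ Y.I c := ⟨le_refl _, by rw [← hq']; nlinarith⟩
  have ht2 : (Y.iv c : ℝ) * kbQ Y.n + Y.q / 2 ∈ Y.I c := ⟨by linarith, by rw [← hq']; nlinarith⟩
  have b1 := h.box c l hl _ ht1
  have b2 := h.box c l hl _ ht2
  have e : (Y.q / 2) • (Y.ch c).Di.mulVec (kbV (P.co (Y.wd c) l) - (Y.ch c).y1)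
      = (Y.ch c).Di.mulVec (kbY (P.co (Y.wd c) l) ((Y.iv c : ℝ) * kbQ Y.n + Y.q / 2) - (Y.ch c).yc ((Y.iv c : ℝ) * kbQ Y.n + Y.q / 2))
        - (Y.ch c).Di.mulVec (kbY (P.co (Y.wd c) l) ((Y.iv c : ℝ) * kbQ Y.n) - (Y.ch c).yc ((Y.iv c : ℝ) * kbQ Y.n)) := by
    rw [← Matrix.mulVec_sub, ← Matrix.mulVec_smul]
    congr 1
    unfold kbY KbChart.yc kbV
    module
  have h3 : ‖(Y.q / 2) • (Y.ch c).Di.mulVec (kbV (P.co (Y.wd c) l) - (Y.ch c).y1)‖ ≤ K + K := by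
    rw [e]
    exact (norm_sub_le _ _).trans (add_le_add b2 b1)
  rw [norm_smul, Real.norm_eq_abs, abs_of_pos (by linarith)] at h3
  linarith

/-- the velocity lies within `4 K |D_c| / q` of `y_c'` -/
theorem k2s_vel_ball (hY : Y.WF) {K a : ℝ} (h : Y.Geo K a) (c : Y.C) (l : P.Lam) (hl : l ∈ Y.A c) :
    Y.q * ‖kbV (P.co (Y.wd c) l) - (Y.ch c).y1‖ ≤ 4 * K * kbMn (Y.ch c).D := by
  have hM : 0 ≤ kbMn (Y.ch c).D := Finset.sum_nonneg fun i _ => Finset.sum_nonneg fun k _ => abs_nonneg _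
  have hq : 0 < Y.q := k2s_q_pos Y
  have e : kbV (P.co (Y.wd c) l) - (Y.ch c).y1 = (Y.ch c).D.mulVec ((Y.ch c).Di.mulVec (kbV (P.co (Y.wd c) l) - (Y.ch c).y1)) := by
    rw [Matrix.mulVec_mulVec, hY.inv c, Matrix.one_mulVec]
  have h1 := k2s_mulVec_le (Y.ch c).D ((Y.ch c).Di.mulVec (kbV (P.co (Y.wd c) l) - (Y.ch c).y1))
  rw [← e] at h1
  have h2 := k2s_vel_box Y h c l hl
  calc Y.q * ‖kbV (P.co (Y.wd c) l) - (Y.ch c).y1‖
      ≤ Y.q * (kbMn (Y.ch c).D * ‖(Y.ch c).Di.mulVec (kbV (P.co (Y.wd c) l) - (Y.ch c).y1)‖) := mul_le_mul_of_nonneg_left h1 hq.le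
    _ = kbMn (Y.ch c).D * (Y.q * ‖(Y.ch c).Di.mulVec (kbV (P.co (Y.wd c) l) - (Y.ch c).y1)‖) := by ring
    _ ≤ kbMn (Y.ch c).D * (4 * K) := mul_le_mul_of_nonneg_left h2 hM
    _ = 4 * K * kbMn (Y.ch c).D := by ring

/-- the base region of a chart -/
def k2sU (K : ℝ) (c : Y.C) : Set (ℝ × KbB v) := {o | o.1 ∈ Y.I c ∧ ‖(Y.ch c).Di.mulVec (o.2 - (Y.ch c).yc o.1)‖ ≤ K}

theorem k2sU_eqns_cite (K : ℝ) (c : Y.C) : k2sU Y K c = {o | o.1 ∈ Y.I c ∧ ‖(Y.ch c).Di.mulVec (o.2 - (Y.ch c).yc o.1)‖ ≤ K} := rfl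

theorem k2s_U_meas (K : ℝ) (c : Y.C) : MeasurableSet (k2sU Y K c) := by
  have h1 : MeasurableSet {o : ℝ × KbB v | o.1 ∈ Y.I c} := measurable_fst (measurableSet_Ico : MeasurableSet (Y.I c))
  have hc : Continuous fun o : ℝ × KbB v => ‖(Y.ch c).Di.mulVec (o.2 - (Y.ch c).yc o.1)‖ := by
    unfold KbChart.yc
    exact (Continuous.matrix_mulVec continuous_const (continuous_snd.sub (continuous_const.add (continuous_fst.smul continuous_const)))).norm
  exact h1.inter (measurableSet_le hc.measurable measurable_const)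

/-- `|U_c| = q (2K)^j J_c`.   PLAN: `Measure.volume_eq_prod`, `Measure.prod_apply`; the section at `t ∈ I_c` is the preimage of `closedBall 0 K` under `y ↦ Di (y - y_c t)`:
translation invariance + `Measure.addHaar_preimage_linearMap` (`LinearMap.det (Matrix.toLin' Di) = det Di = (det D)⁻¹`) + `Real.volume_pi_closedBall`. -/
theorem k2s_U_vol (hY : Y.WF) {K : ℝ} (hK : 0 ≤ K) (c : Y.C) : volume (k2sU Y K c) = ENNReal.ofReal (Y.q * (2 * K) ^ v.j * (Y.ch c).J) := by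
  have hdet : (Y.ch c).D.det * (Y.ch c).Di.det = 1 := by
    rw [← Matrix.det_mul, hY.inv c, Matrix.det_one]
  have hDi : (Y.ch c).Di.det ≠ 0 := fun h0 => by rw [h0, mul_zero] at hdet; exact zero_ne_one hdet
  have hinv : ((Y.ch c).Di.det)⁻¹ = (Y.ch c).D.det := (eq_inv_of_mul_eq_one_left hdet).symm
  have hsec : ∀ t : ℝ, volume (Prod.mk t ⁻¹' k2sU Y K c) = (Y.I c).indicator (fun _ => ENNReal.ofReal ((Y.ch c).J * (2 * K) ^ v.j)) t := by
    intro t
    by_cases ht : t ∈ Y.I c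
    · rw [Set.indicator_of_mem ht]
      have e : Prod.mk t ⁻¹' k2sU Y K c
          = (fun y : KbB v => y + -(Y.ch c).yc t) ⁻¹' ((Matrix.toLin' (Y.ch c).Di) ⁻¹' Metric.closedBall 0 K) := by
        ext y
        simp only [k2sU, Set.mem_preimage, Set.mem_ofPred_eq, ht, true_and, mem_closedBall_zero_iff, Matrix.toLin'_apply, sub_eq_add_neg]
      rw [e, measure_preimage_add_right, Measure.addHaar_preimage_linearMap _ (by rw [LinearMap.det_toLin']; exact hDi), LinearMap.det_toLin', hinv,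
        Real.volume_pi_closedBall _ hK, Fintype.card_fin, ← ENNReal.ofReal_mul (abs_nonneg _)]
      rfl
    · rw [Set.indicator_of_notMem ht]
      have e : Prod.mk t ⁻¹' k2sU Y K c = ∅ := by
        ext y
        simp only [k2sU, Set.mem_preimage, Set.mem_ofPred_eq, ht, false_and, Set.mem_empty_iff_false]
      rw [e, measure_empty]
  rw [Measure.volume_eq_prod, Measure.prod_apply (k2s_U_meas Y K c)]
  simp only [hsec]
  have hI : MeasurableSet (Y.I c) := measurableSet_Ico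
  have hJ : 0 ≤ (Y.ch c).J * (2 * K) ^ v.j := mul_nonneg (abs_nonneg _) (by positivity)
  rw [lintegral_indicator_const hI, k2s_vol_I, ← ENNReal.ofReal_mul hJ]
  congr 1
  ring

/-- the base of an assigned incidence lies in the base region -/
theorem k2s_bs_mem_U {K a : ℝ} (h : Y.Geo K a) (c : Y.C) (x : P.Lam × ℝ) (hx : x ∈ Y.A c ×ˢ Y.I c) : P.bs (Y.wd c) x ∈ k2sU Y K c := by
  exact ⟨hx.2, h.box c x.1 hx.1 x.2 hx.2⟩

end sys

end

end Claimed.Agent.R252
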